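import Vale.Agent.P098.Six.S3.Root

/-!
# P098, six dimensions: checked pieces of the tree
-/

namespace Vale.Agent.P098.Six.S3

/-- A piece of the tree. -/
noncomputable def tree0 : Tree LeafX :=
  .s0
    (.s3
    (.s3
    (.s2
    (.leaf (.box ⟨1704, 0, -2953, 6, -64, 1346, 354625, 0, 0, 0, 0, 0, 0⟩ ⟨0, 0, 0, 0, 0, 0, 229226, 0, 0, 0, 0, 0, 0⟩ ⟨0, 0, 0, 0, 0, 0, 229226, 0, 0, 0, 0, 0, 0⟩ ⟨0, 0, 0, 0, 0, 0, 169344, 0, 0, 0, 0, 0, 0⟩ ⟨0, 0, 0, 0, 0, 0, 169344, 0, 0, 0, 0, 0, 0⟩ ⟨1069, 1, -2048, 9, -97, 764, 134268, 0, 0, 0, 0, 0, 0⟩))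
    (.leaf (.box ⟨2141, 0, -3339, 6, -74, 1538, 341064, 0, 0, 0, 0, 0, 0⟩ ⟨0, 0, 0, 0, 0, 0, 220444, 0, 0, 0, 0, 0, 0⟩ ⟨0, 0, 0, 0, 0, 0, 220444, 0, 0, 0, 0, 0, 0⟩ ⟨0, 0, 0, 0, 0, 0, 162851, 0, 0, 0, 0, 0, 0⟩ ⟨0, 0, 0, 0, 0, 0, 162851, 0, 0, 0, 0, 0, 0⟩ ⟨1187, 0, -2048, 7, -94, 740, 129117, 0, 0, 0, 0, 0, 0⟩)))
    (.s0
    (.leaf (.box ⟨1628, 0, -2988, 6, -75, 1580, 347069, 0, 0, 0, 0, 0, 0⟩ ⟨0, 0, 0, 0, 0, 0, 207962, 0, 0, 0, 0, 0, 0⟩ ⟨0, 0, 0, 0, 0, 0, 207962, 0, 0, 0, 0, 0, 0⟩ ⟨0, 0, 0, 0, 0, 0, 148459, 0, 0, 0, 0, 0, 0⟩ ⟨0, 0, 0, 0, 0, 0, 148459, 0, 0, 0, 0, 0, 0⟩ ⟨1117, 1, -2048, 9, -105, 740, 115431, 0, 0, 0, 0, 0, 0⟩))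
    (.leaf (.box ⟨979, 0, -2899, 6, -58, 1193, 347054, 0, 0, 0, 0, 0, 0⟩ ⟨0, 0, 0, 0, 0, 0, 207961, 0, 0, 0, 0, 0, 0⟩ ⟨0, 0, 0, 0, 0, 0, 207961, 0, 0, 0, 0, 0, 0⟩ ⟨0, 0, 0, 0, 0, 0, 148460, 0, 0, 0, 0, 0, 0⟩ ⟨0, 0, 0, 0, 0, 0, 148460, 0, 0, 0, 0, 0, 0⟩ ⟨634, 0, -2048, 10, -99, 681, 115433, 0, 0, 0, 0, 0, 0⟩))))
    (.s3
    (.s1
    (.s2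
    (.leaf (.box ⟨1161, 0, -3510, 6, -69, 1491, 367291, 0, 0, 0, 0, 0, 0⟩ ⟨0, 0, 0, 0, 0, 0, 204656, 0, 0, 0, 0, 0, 0⟩ ⟨0, 0, 0, 0, 0, 0, 204656, 0, 0, 0, 0, 0, 0⟩ ⟨0, 0, 0, 0, 0, 0, 141846, 0, 0, 0, 0, 0, 0⟩ ⟨0, 0, 0, 0, 0, 0, 141846, 0, 0, 0, 0, 0, 0⟩ ⟨588, 1, -2048, 8, -107, 684, 108536, 0, 0, 0, 0, 0, 0⟩))
    (.leaf (.box ⟨1601, 0, -4456, 6, -86, 1863, 353221, 0, 0, 0, 0, 0, 0⟩ ⟨0, 0, 0, 0, 0, 0, 196780, 0, 0, 0, 0, 0, 0⟩ ⟨0, 0, 0, 0, 0, 0, 196780, 0, 0, 0, 0, 0, 0⟩ ⟨0, 0, 0, 0, 0, 0, 136378, 0, 0, 0, 0, 0, 0⟩ ⟨0, 0, 0, 0, 0, 0, 136378, 0, 0, 0, 0, 0, 0⟩ ⟨658, 1, -2048, 8, -104, 667, 104348, 0, 0, 0, 0, 0, 0⟩)))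
    (.leaf (.box ⟨1781, 0, -3485, 6, -85, 1827, 357264, 0, 0, 0, 0, 0, 0⟩ ⟨0, 0, 0, 0, 0, 0, 199108, 0, 0, 0, 0, 0, 0⟩ ⟨0, 0, 0, 0, 0, 0, 199108, 0, 0, 0, 0, 0, 0⟩ ⟨0, 0, 0, 0, 0, 0, 138012, 0, 0, 0, 0, 0, 0⟩ ⟨0, 0, 0, 0, 0, 0, 138012, 0, 0, 0, 0, 0, 0⟩ ⟨994, 0, -2048, 8, -115, 732, 105606, 0, 0, 0, 0, 0, 0⟩)))
    (.s1
    (.s2
    (.leaf (.box ⟨1477, 0, -4675, 6, -91, 2007, 373975, 0, 0, 0, 0, 0, 0⟩ ⟨0, 0, 0, 0, 0, 0, 194233, 0, 0, 0, 0, 0, 0⟩ ⟨0, 0, 0, 0, 0, 0, 194233, 0, 0, 0, 0, 0, 0⟩ ⟨0, 0, 0, 0, 0, 0, 131183, 0, 0, 0, 0, 0, 0⟩ ⟨0, 0, 0, 0, 0, 0, 131183, 0, 0, 0, 0, 0, 0⟩ ⟨572, 1, -2048, 9, -116, 679, 99035, 0, 0, 0, 0, 0, 0⟩))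
    (.leaf (.box ⟨1650, 0, -4812, 6, -91, 2028, 359633, 0, 0, 0, 0, 0, 0⟩ ⟨0, 0, 0, 0, 0, 0, 186736, 0, 0, 0, 0, 0, 0⟩ ⟨0, 0, 0, 0, 0, 0, 186736, 0, 0, 0, 0, 0, 0⟩ ⟨0, 0, 0, 0, 0, 0, 126108, 0, 0, 0, 0, 0, 0⟩ ⟨0, 0, 0, 0, 0, 0, 126108, 0, 0, 0, 0, 0, 0⟩ ⟨632, 0, -2048, 8, -115, 676, 95199, 0, 0, 0, 0, 0, 0⟩)))
    (.s2
    (.leaf (.box ⟨2141, 0, -4976, 6, -115, 2594, 378716, 0, 0, 0, 0, 0, 0⟩ ⟨0, 0, 0, 0, 0, 0, 196828, 0, 0, 0, 0, 0, 0⟩ ⟨0, 0, 0, 0, 0, 0, 196828, 0, 0, 0, 0, 0, 0⟩ ⟨0, 0, 0, 0, 0, 0, 132967, 0, 0, 0, 0, 0, 0⟩ ⟨0, 0, 0, 0, 0, 0, 132967, 0, 0, 0, 0, 0, 0⟩ ⟨732, 0, -2048, 7, -136, 811, 100394, 0, 0, 0, 0, 0, 0⟩))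
    (.leaf (.box ⟨2600, 0, -5441, 6, -128, 2874, 363789, 0, 0, 0, 0, 0, 0⟩ ⟨0, 0, 0, 0, 0, 0, 188988, 0, 0, 0, 0, 0, 0⟩ ⟨0, 0, 0, 0, 0, 0, 188988, 0, 0, 0, 0, 0, 0⟩ ⟨0, 0, 0, 0, 0, 0, 127652, 0, 0, 0, 0, 0, 0⟩ ⟨0, 0, 0, 0, 0, 0, 127652, 0, 0, 0, 0, 0, 0⟩ ⟨1080, 0, -2371, 6, -141, 837, 96373, 0, 0, 0, 0, 0, 0⟩))))))
    (.s3
    (.leaf (.box ⟨467, 0, -2048, 6, -38, 724, 341074, 0, 0, 0, 0, 0, 0⟩ ⟨0, 0, 0, 0, 0, 0, 206571, 0, 0, 0, 0, 0, 0⟩ ⟨0, 0, 0, 0, 0, 0, 206571, 0, 0, 0, 0, 0, 0⟩ ⟨0, 0, 0, 0, 0, 0, 148148, 0, 0, 0, 0, 0, 0⟩ ⟨0, 0, 0, 0, 0, 0, 148148, 0, 0, 0, 0, 0, 0⟩ ⟨459, 0, -2048, 16, -93, 603, 115486, 0, 0, 0, 0, 0, 0⟩))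
    (.s3
    (.leaf (.box ⟨500, 0, -2137, 6, -38, 763, 353337, 0, 0, 0, 0, 0, 0⟩ ⟨0, 0, 0, 0, 0, 0, 196887, 0, 0, 0, 0, 0, 0⟩ ⟨0, 0, 0, 0, 0, 0, 196887, 0, 0, 0, 0, 0, 0⟩ ⟨0, 0, 0, 0, 0, 0, 136464, 0, 0, 0, 0, 0, 0⟩ ⟨0, 0, 0, 0, 0, 0, 136464, 0, 0, 0, 0, 0, 0⟩ ⟨441, 0, -2048, 16, -100, 594, 104418, 0, 0, 0, 0, 0, 0⟩))
    (.s2
    (.leaf (.box ⟨591, 0, -2762, 6, -48, 1006, 373872, 0, 0, 0, 0, 0, 0⟩ ⟨0, 0, 0, 0, 0, 0, 194207, 0, 0, 0, 0, 0, 0⟩ ⟨0, 0, 0, 0, 0, 0, 194207, 0, 0, 0, 0, 0, 0⟩ ⟨0, 0, 0, 0, 0, 0, 131172, 0, 0, 0, 0, 0, 0⟩ ⟨0, 0, 0, 0, 0, 0, 131172, 0, 0, 0, 0, 0, 0⟩ ⟨399, 0, -2048, 13, -109, 601, 99029, 0, 0, 0, 0, 0, 0⟩))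
    (.leaf (.box ⟨660, 0, -2780, 6, -47, 980, 359770, 0, 0, 0, 0, 0, 0⟩ ⟨0, 0, 0, 0, 0, 0, 186864, 0, 0, 0, 0, 0, 0⟩ ⟨0, 0, 0, 0, 0, 0, 186864, 0, 0, 0, 0, 0, 0⟩ ⟨0, 0, 0, 0, 0, 0, 126208, 0, 0, 0, 0, 0, 0⟩ ⟨0, 0, 0, 0, 0, 0, 126208, 0, 0, 0, 0, 0, 0⟩ ⟨478, 0, -2048, 13, -103, 577, 95280, 0, 0, 0, 0, 0, 0⟩)))))

/-- A piece of the tree. -/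
noncomputable def tree1 : Tree LeafX :=
  .s0
    (.s2
    (.s3
    (.leaf (.box ⟨2620, 0, -3778, 6, -81, 1692, 327256, 0, 0, 0, 0, 0, 0⟩ ⟨0, 0, 0, 0, 0, 0, 198140, 0, 0, 0, 0, 0, 0⟩ ⟨0, 0, 0, 0, 0, 0, 198140, 0, 0, 0, 0, 0, 0⟩ ⟨0, 0, 0, 0, 0, 0, 142083, 0, 0, 0, 0, 0, 0⟩ ⟨0, 0, 0, 0, 0, 0, 142083, 0, 0, 0, 0, 0, 0⟩ ⟨1326, 0, -2048, 7, -98, 692, 110749, 0, 0, 0, 0, 0, 0⟩))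
    (.s3
    (.leaf (.box ⟨2972, 0, -4864, 6, -101, 2199, 338976, 0, 0, 0, 0, 0, 0⟩ ⟨0, 0, 0, 0, 0, 0, 188810, 0, 0, 0, 0, 0, 0⟩ ⟨0, 0, 0, 0, 0, 0, 188810, 0, 0, 0, 0, 0, 0⟩ ⟨0, 0, 0, 0, 0, 0, 130846, 0, 0, 0, 0, 0, 0⟩ ⟨0, 0, 0, 0, 0, 0, 130846, 0, 0, 0, 0, 0, 0⟩ ⟨1049, 0, -2048, 7, -110, 705, 100111, 0, 0, 0, 0, 0, 0⟩))
    (.leaf (.box ⟨2546, 0, -4381, 6, -90, 1987, 345102, 0, 0, 0, 0, 0, 0⟩ ⟨0, 0, 0, 0, 0, 0, 179160, 0, 0, 0, 0, 0, 0⟩ ⟨0, 0, 0, 0, 0, 0, 179160, 0, 0, 0, 0, 0, 0⟩ ⟨0, 0, 0, 0, 0, 0, 120985, 0, 0, 0, 0, 0, 0⟩ ⟨0, 0, 0, 0, 0, 0, 120985, 0, 0, 0, 0, 0, 0⟩ ⟨981, 0, -2048, 7, -118, 694, 91329, 0, 0, 0, 0, 0, 0⟩))))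
    (.leaf (.box ⟨2481, 0, -3405, 6, -68, 1439, 313552, 0, 0, 0, 0, 0, 0⟩ ⟨0, 0, 0, 0, 0, 0, 168555, 0, 0, 0, 0, 0, 0⟩ ⟨0, 0, 0, 0, 0, 0, 168555, 0, 0, 0, 0, 0, 0⟩ ⟨0, 0, 0, 0, 0, 0, 115257, 0, 0, 0, 0, 0, 0⟩ ⟨0, 0, 0, 0, 0, 0, 115257, 0, 0, 0, 0, 0, 0⟩ ⟨1320, 0, -2048, 8, -112, 659, 87567, 0, 0, 0, 0, 0, 0⟩)))
    (.s2
    (.leaf (.box ⟨759, 0, -2778, 6, -46, 916, 327816, 0, 0, 0, 0, 0, 0⟩ ⟨0, 0, 0, 0, 0, 0, 176307, 0, 0, 0, 0, 0, 0⟩ ⟨0, 0, 0, 0, 0, 0, 176307, 0, 0, 0, 0, 0, 0⟩ ⟨0, 0, 0, 0, 0, 0, 120578, 0, 0, 0, 0, 0, 0⟩ ⟨0, 0, 0, 0, 0, 0, 120578, 0, 0, 0, 0, 0, 0⟩ ⟨557, -1, -2048, 13, -98, 547, 91618, 0, 0, 0, 0, 0, 0⟩))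
    (.leaf (.box ⟨1004, 0, -3315, 6, -49, 1005, 315037, 0, 0, 0, 0, 0, 0⟩ ⟨0, 0, 0, 0, 0, 0, 169439, 0, 0, 0, 0, 0, 0⟩ ⟨0, 0, 0, 0, 0, 0, 169439, 0, 0, 0, 0, 0, 0⟩ ⟨0, 0, 0, 0, 0, 0, 115883, 0, 0, 0, 0, 0, 0⟩ ⟨0, 0, 0, 0, 0, 0, 115883, 0, 0, 0, 0, 0, 0⟩ ⟨594, -1, -2048, 12, -87, 500, 88051, 0, 0, 0, 0, 0, 0⟩)))

/-- A piece of the tree. -/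
noncomputable def tree2 : Tree LeafX :=
  .s0
    (.s2
    (.s3
    (.s3
    (.leaf (.box ⟨3820, 0, -1923, 6, -116, 2410, 348129, 0, 0, 0, 0, 0, 0⟩ ⟨0, 0, 0, 0, 0, 0, 225109, 0, 0, 0, 0, 0, 0⟩ ⟨0, 0, 0, 0, 0, 0, 225109, 0, 0, 0, 0, 0, 0⟩ ⟨0, 0, 0, 0, 0, 0, 166332, 0, 0, 0, 0, 0, 0⟩ ⟨0, 0, 0, 0, 0, 0, 166332, 0, 0, 0, 0, 0, 0⟩ ⟨2048, 0, -1447, 8, -159, 1251, 131893, 0, 0, 0, 0, 0, 0⟩))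
    (.leaf (.box ⟨3857, 0, -1148, 6, -102, 2158, 354307, 0, 0, 0, 0, 0, 0⟩ ⟨0, 0, 0, 0, 0, 0, 212433, 0, 0, 0, 0, 0, 0⟩ ⟨0, 0, 0, 0, 0, 0, 212433, 0, 0, 0, 0, 0, 0⟩ ⟨0, 0, 0, 0, 0, 0, 151692, 0, 0, 0, 0, 0, 0⟩ ⟨0, 0, 0, 0, 0, 0, 151692, 0, 0, 0, 0, 0, 0⟩ ⟨2048, 0, -1662, 10, -186, 1316, 117962, 0, 0, 0, 0, 0, 0⟩)))
    (.s0
    (.leaf (.box ⟨2918, 0, -2381, 6, -118, 2550, 360703, 0, 0, 0, 0, 0, 0⟩ ⟨0, 0, 0, 0, 0, 0, 189716, 0, 0, 0, 0, 0, 0⟩ ⟨0, 0, 0, 0, 0, 0, 189716, 0, 0, 0, 0, 0, 0⟩ ⟨0, 0, 0, 0, 0, 0, 128705, 0, 0, 0, 0, 0, 0⟩ ⟨0, 0, 0, 0, 0, 0, 128705, 0, 0, 0, 0, 0, 0⟩ ⟨1842, 0, -2048, 10, -250, 1463, 97386, 0, 0, 0, 0, 0, 0⟩))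
    (.s2
    (.leaf (.box ⟨3364, 0, -6310, 6, -182, 4047, 375987, 0, 0, 0, 0, 0, 0⟩ ⟨0, 0, 0, 0, 0, 0, 197788, 0, 0, 0, 0, 0, 0⟩ ⟨0, 0, 0, 0, 0, 0, 197788, 0, 0, 0, 0, 0, 0⟩ ⟨0, 0, 0, 0, 0, 0, 134189, 0, 0, 0, 0, 0, 0⟩ ⟨0, 0, 0, 0, 0, 0, 134189, 0, 0, 0, 0, 0, 0⟩ ⟨994, 0, -2114, 6, -172, 1036, 101539, 0, 0, 0, 0, 0, 0⟩))
    (.leaf (.box ⟨3433, 0, -5651, 6, -176, 3828, 361086, 0, 0, 0, 0, 0, 0⟩ ⟨0, 0, 0, 0, 0, 0, 189964, 0, 0, 0, 0, 0, 0⟩ ⟨0, 0, 0, 0, 0, 0, 189964, 0, 0, 0, 0, 0, 0⟩ ⟨0, 0, 0, 0, 0, 0, 128884, 0, 0, 0, 0, 0, 0⟩ ⟨0, 0, 0, 0, 0, 0, 128884, 0, 0, 0, 0, 0, 0⟩ ⟨1619, 0, -2571, 6, -169, 995, 97526, 0, 0, 0, 0, 0, 0⟩)))))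
    (.s3
    (.s2
    (.leaf (.box ⟨3267, 0, -1843, 6, -90, 1838, 333825, 0, 0, 0, 0, 0, 0⟩ ⟨0, 0, 0, 0, 0, 0, 202285, 0, 0, 0, 0, 0, 0⟩ ⟨0, 0, 0, 0, 0, 0, 202285, 0, 0, 0, 0, 0, 0⟩ ⟨0, 0, 0, 0, 0, 0, 145107, 0, 0, 0, 0, 0, 0⟩ ⟨0, 0, 0, 0, 0, 0, 145107, 0, 0, 0, 0, 0, 0⟩ ⟨2048, -1, -1528, 9, -154, 1070, 113129, 0, 0, 0, 0, 0, 0⟩))
    (.leaf (.box ⟨2680, -1, -1332, 6, -67, 1353, 319930, 0, 0, 0, 0, 0, 0⟩ ⟨0, 0, 0, 0, 0, 0, 193876, 0, 0, 0, 0, 0, 0⟩ ⟨0, 0, 0, 0, 0, 0, 193876, 0, 0, 0, 0, 0, 0⟩ ⟨0, 0, 0, 0, 0, 0, 139079, 0, 0, 0, 0, 0, 0⟩ ⟨0, 0, 0, 0, 0, 0, 139079, 0, 0, 0, 0, 0, 0⟩ ⟨2048, -1, -1402, 11, -139, 956, 108431, 0, 0, 0, 0, 0, 0⟩)))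
    (.leaf (.box ⟨2681, 0, -1723, 6, -76, 1575, 331540, 0, 0, 0, 0, 0, 0⟩ ⟨0, 0, 0, 0, 0, 0, 174414, 0, 0, 0, 0, 0, 0⟩ ⟨0, 0, 0, 0, 0, 0, 174414, 0, 0, 0, 0, 0, 0⟩ ⟨0, 0, 0, 0, 0, 0, 118333, 0, 0, 0, 0, 0, 0⟩ ⟨0, 0, 0, 0, 0, 0, 118333, 0, 0, 0, 0, 0, 0⟩ ⟨2048, -1, -1849, 17, -209, 1171, 89541, 0, 0, 0, 0, 0, 0⟩))))
    (.s2
    (.s3
    (.s3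
    (.leaf (.box ⟨1250, -1, -2759, 6, -62, 1241, 348743, 0, 0, 0, 0, 0, 0⟩ ⟨0, 0, 0, 0, 0, 0, 225567, 0, 0, 0, 0, 0, 0⟩ ⟨0, 0, 0, 0, 0, 0, 225567, 0, 0, 0, 0, 0, 0⟩ ⟨0, 0, 0, 0, 0, 0, 166691, 0, 0, 0, 0, 0, 0⟩ ⟨0, 0, 0, 0, 0, 0, 166691, 0, 0, 0, 0, 0, 0⟩ ⟨822, -2, -2048, 10, -106, 808, 132188, 0, 0, 0, 0, 0, 0⟩))
    (.leaf (.box ⟨1222, -1, -2805, 6, -62, 1277, 354997, 0, 0, 0, 0, 0, 0⟩ ⟨0, 0, 0, 0, 0, 0, 212923, 0, 0, 0, 0, 0, 0⟩ ⟨0, 0, 0, 0, 0, 0, 212923, 0, 0, 0, 0, 0, 0⟩ ⟨0, 0, 0, 0, 0, 0, 152065, 0, 0, 0, 0, 0, 0⟩ ⟨0, 0, 0, 0, 0, 0, 152065, 0, 0, 0, 0, 0, 0⟩ ⟨803, -2, -2048, 11, -114, 780, 118262, 0, 0, 0, 0, 0, 0⟩)))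
    (.s3
    (.s2
    (.leaf (.box ⟨1404, -1, -3595, 6, -76, 1640, 375990, 0, 0, 0, 0, 0, 0⟩ ⟨0, 0, 0, 0, 0, 0, 209703, 0, 0, 0, 0, 0, 0⟩ ⟨0, 0, 0, 0, 0, 0, 209703, 0, 0, 0, 0, 0, 0⟩ ⟨0, 0, 0, 0, 0, 0, 145399, 0, 0, 0, 0, 0, 0⟩ ⟨0, 0, 0, 0, 0, 0, 145399, 0, 0, 0, 0, 0, 0⟩ ⟨727, -1, -2048, 10, -120, 766, 111276, 0, 0, 0, 0, 0, 0⟩))
    (.leaf (.box ⟨1782, -1, -4275, 6, -93, 1973, 361476, 0, 0, 0, 0, 0, 0⟩ ⟨0, 0, 0, 0, 0, 0, 201628, 0, 0, 0, 0, 0, 0⟩ ⟨0, 0, 0, 0, 0, 0, 201628, 0, 0, 0, 0, 0, 0⟩ ⟨0, 0, 0, 0, 0, 0, 139805, 0, 0, 0, 0, 0, 0⟩ ⟨0, 0, 0, 0, 0, 0, 139805, 0, 0, 0, 0, 0, 0⟩ ⟨800, -1, -2048, 9, -121, 766, 106997, 0, 0, 0, 0, 0, 0⟩)))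
    (.s2
    (.leaf (.box ⟨1432, -1, -3807, 6, -79, 1748, 382964, 0, 0, 0, 0, 0, 0⟩ ⟨0, 0, 0, 0, 0, 0, 199134, 0, 0, 0, 0, 0, 0⟩ ⟨0, 0, 0, 0, 0, 0, 199134, 0, 0, 0, 0, 0, 0⟩ ⟨0, 0, 0, 0, 0, 0, 134549, 0, 0, 0, 0, 0, 0⟩ ⟨0, 0, 0, 0, 0, 0, 134549, 0, 0, 0, 0, 0, 0⟩ ⟨734, -1, -2048, 9, -126, 739, 101597, 0, 0, 0, 0, 0, 0⟩))
    (.leaf (.box ⟨1538, -1, -3795, 6, -81, 1756, 368195, 0, 0, 0, 0, 0, 0⟩ ⟨0, 0, 0, 0, 0, 0, 191477, 0, 0, 0, 0, 0, 0⟩ ⟨0, 0, 0, 0, 0, 0, 191477, 0, 0, 0, 0, 0, 0⟩ ⟨0, 0, 0, 0, 0, 0, 129380, 0, 0, 0, 0, 0, 0⟩ ⟨0, 0, 0, 0, 0, 0, 129380, 0, 0, 0, 0, 0, 0⟩ ⟨737, -1, -2048, 9, -131, 757, 97696, 0, 0, 0, 0, 0, 0⟩)))))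
    (.s3
    (.leaf (.box ⟨1373, -1, -2796, 6, -60, 1207, 321860, 0, 0, 0, 0, 0, 0⟩ ⟨0, 0, 0, 0, 0, 0, 195104, 0, 0, 0, 0, 0, 0⟩ ⟨0, 0, 0, 0, 0, 0, 195104, 0, 0, 0, 0, 0, 0⟩ ⟨0, 0, 0, 0, 0, 0, 139978, 0, 0, 0, 0, 0, 0⟩ ⟨0, 0, 0, 0, 0, 0, 139978, 0, 0, 0, 0, 0, 0⟩ ⟨962, -2, -2048, 10, -107, 726, 109140, 0, 0, 0, 0, 0, 0⟩))
    (.leaf (.box ⟨1402, -1, -3048, 6, -64, 1334, 333675, 0, 0, 0, 0, 0, 0⟩ ⟨0, 0, 0, 0, 0, 0, 175628, 0, 0, 0, 0, 0, 0⟩ ⟨0, 0, 0, 0, 0, 0, 175628, 0, 0, 0, 0, 0, 0⟩ ⟨0, 0, 0, 0, 0, 0, 119179, 0, 0, 0, 0, 0, 0⟩ ⟨0, 0, 0, 0, 0, 0, 119179, 0, 0, 0, 0, 0, 0⟩ ⟨874, -2, -2048, 11, -125, 707, 90190, 0, 0, 0, 0, 0, 0⟩))))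

/-- A piece of the tree. -/
noncomputable def tree3 : Tree LeafX :=
  .s1
    (.leaf (.box ⟨1694, 0, -2048, 8, -27, 563, 263608, 0, 0, 0, 0, 0, 0⟩ ⟨0, 0, 0, 0, 0, 0, 141709, 0, 0, 0, 0, 0, 0⟩ ⟨0, 0, 0, 0, 0, 0, 141709, 0, 0, 0, 0, 0, 0⟩ ⟨0, 0, 0, 0, 0, 0, 96900, 0, 0, 0, 0, 0, 0⟩ ⟨0, 0, 0, 0, 0, 0, 96900, 0, 0, 0, 0, 0, 0⟩ ⟨1662, -1, -2048, 23, -82, 475, 73620, 0, 0, 0, 0, 0, 0⟩))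
    (.leaf (.box ⟨2048, -2, -1293, 9, -29, 572, 268487, 0, 0, 0, 0, 0, 0⟩ ⟨0, 0, 0, 0, 0, 0, 144565, 0, 0, 0, 0, 0, 0⟩ ⟨0, 0, 0, 0, 0, 0, 144565, 0, 0, 0, 0, 0, 0⟩ ⟨0, 0, 0, 0, 0, 0, 98912, 0, 0, 0, 0, 0, 0⟩ ⟨0, 0, 0, 0, 0, 0, 98912, 0, 0, 0, 0, 0, 0⟩ ⟨2048, -6, -1607, 28, -94, 521, 75172, 0, 0, 0, 0, 0, 0⟩))

/-- A piece of the tree. -/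
noncomputable def tree4 : Tree LeafX :=
  .s2
    (.s0
    (.s2
    (.leaf (.box ⟨3658, 0, 274, 6, -68, 1397, 353414, 0, 0, 0, 0, 0, 0⟩ ⟨0, 0, 0, 0, 0, 0, 190231, 0, 0, 0, 0, 0, 0⟩ ⟨0, 0, 0, 0, 0, 0, 190231, 0, 0, 0, 0, 0, 0⟩ ⟨0, 0, 0, 0, 0, 0, 130141, 0, 0, 0, 0, 0, 0⟩ ⟨0, 0, 0, 0, 0, 0, 130141, 0, 0, 0, 0, 0, 0⟩ ⟨2048, 0, 452, 13, -142, 812, 98900, 0, 0, 0, 0, 0, 0⟩))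
    (.leaf (.box ⟨2987, 0, 616, 6, -51, 963, 324572, 0, 0, 0, 0, 0, 0⟩ ⟨0, 0, 0, 0, 0, 0, 174733, 0, 0, 0, 0, 0, 0⟩ ⟨0, 0, 0, 0, 0, 0, 174733, 0, 0, 0, 0, 0, 0⟩ ⟨0, 0, 0, 0, 0, 0, 119545, 0, 0, 0, 0, 0, 0⟩ ⟨0, 0, 0, 0, 0, 0, 119545, 0, 0, 0, 0, 0, 0⟩ ⟨2048, -1, 672, 15, -133, 699, 90850, 0, 0, 0, 0, 0, 0⟩)))
    (.s1
    (.s2
    (.s3
    (.s3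
    (.leaf (.box ⟨3681, -1, -3993, 6, -92, 1884, 355030, 0, 0, 0, 0, 0, 0⟩ ⟨0, 0, 0, 0, 0, 0, 229673, 0, 0, 0, 0, 0, 0⟩ ⟨0, 0, 0, 0, 0, 0, 229673, 0, 0, 0, 0, 0, 0⟩ ⟨0, 0, 0, 0, 0, 0, 169740, 0, 0, 0, 0, 0, 0⟩ ⟨0, 0, 0, 0, 0, 0, 169740, 0, 0, 0, 0, 0, 0⟩ ⟨1764, -1, -2063, 6, -110, 860, 134612, 0, 0, 0, 0, 0, 0⟩))
    (.leaf (.box ⟨2886, -1, -2688, 6, -113, 2369, 361441, 0, 0, 0, 0, 0, 0⟩ ⟨0, 0, 0, 0, 0, 0, 216840, 0, 0, 0, 0, 0, 0⟩ ⟨0, 0, 0, 0, 0, 0, 216840, 0, 0, 0, 0, 0, 0⟩ ⟨0, 0, 0, 0, 0, 0, 154878, 0, 0, 0, 0, 0, 0⟩ ⟨0, 0, 0, 0, 0, 0, 154878, 0, 0, 0, 0, 0, 0⟩ ⟨1767, -2, -2048, 11, -201, 1407, 120457, 0, 0, 0, 0, 0, 0⟩)))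
    (.s2
    (.leaf (.box ⟨2814, -1, -4162, 6, -124, 2745, 383077, 0, 0, 0, 0, 0, 0⟩ ⟨0, 0, 0, 0, 0, 0, 201621, 0, 0, 0, 0, 0, 0⟩ ⟨0, 0, 0, 0, 0, 0, 201621, 0, 0, 0, 0, 0, 0⟩ ⟨0, 0, 0, 0, 0, 0, 136815, 0, 0, 0, 0, 0, 0⟩ ⟨0, 0, 0, 0, 0, 0, 136815, 0, 0, 0, 0, 0, 0⟩ ⟨1179, -1, -2048, 9, -196, 1179, 103535, 0, 0, 0, 0, 0, 0⟩))
    (.leaf (.box ⟨3579, -1, -4661, 6, -153, 3288, 368084, 0, 0, 0, 0, 0, 0⟩ ⟨0, 0, 0, 0, 0, 0, 193753, 0, 0, 0, 0, 0, 0⟩ ⟨0, 0, 0, 0, 0, 0, 193753, 0, 0, 0, 0, 0, 0⟩ ⟨0, 0, 0, 0, 0, 0, 131481, 0, 0, 0, 0, 0, 0⟩ ⟨0, 0, 0, 0, 0, 0, 131481, 0, 0, 0, 0, 0, 0⟩ ⟨1850, -1, -2425, 6, -168, 981, 99501, 0, 0, 0, 0, 0, 0⟩))))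
    (.s2
    (.leaf (.box ⟨3558, -1, -3648, 6, -132, 2678, 340960, 0, 0, 0, 0, 0, 0⟩ ⟨0, 0, 0, 0, 0, 0, 183603, 0, 0, 0, 0, 0, 0⟩ ⟨0, 0, 0, 0, 0, 0, 183603, 0, 0, 0, 0, 0, 0⟩ ⟨0, 0, 0, 0, 0, 0, 125626, 0, 0, 0, 0, 0, 0⟩ ⟨0, 0, 0, 0, 0, 0, 125626, 0, 0, 0, 0, 0, 0⟩ ⟨1836, -1, -2048, 7, -151, 863, 95476, 0, 0, 0, 0, 0, 0⟩))
    (.leaf (.box ⟨2609, -1, -2543, 6, -91, 1829, 327316, 0, 0, 0, 0, 0, 0⟩ ⟨0, 0, 0, 0, 0, 0, 176277, 0, 0, 0, 0, 0, 0⟩ ⟨0, 0, 0, 0, 0, 0, 176277, 0, 0, 0, 0, 0, 0⟩ ⟨0, 0, 0, 0, 0, 0, 120618, 0, 0, 0, 0, 0, 0⟩ ⟨0, 0, 0, 0, 0, 0, 120618, 0, 0, 0, 0, 0, 0⟩ ⟨1801, -2, -2048, 12, -199, 1123, 91672, 0, 0, 0, 0, 0, 0⟩))))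
    (.s2
    (.leaf (.box ⟨3411, -1, -1593, 6, -110, 2281, 360090, 0, 0, 0, 0, 0, 0⟩ ⟨0, 0, 0, 0, 0, 0, 193868, 0, 0, 0, 0, 0, 0⟩ ⟨0, 0, 0, 0, 0, 0, 193868, 0, 0, 0, 0, 0, 0⟩ ⟨0, 0, 0, 0, 0, 0, 132640, 0, 0, 0, 0, 0, 0⟩ ⟨0, 0, 0, 0, 0, 0, 132640, 0, 0, 0, 0, 0, 0⟩ ⟨2048, -1, -1179, 9, -219, 1269, 100803, 0, 0, 0, 0, 0, 0⟩))
    (.leaf (.box ⟨2414, -1, -676, 6, -74, 1443, 331676, 0, 0, 0, 0, 0, 0⟩ ⟨0, 0, 0, 0, 0, 0, 178611, 0, 0, 0, 0, 0, 0⟩ ⟨0, 0, 0, 0, 0, 0, 178611, 0, 0, 0, 0, 0, 0⟩ ⟨0, 0, 0, 0, 0, 0, 122212, 0, 0, 0, 0, 0, 0⟩ ⟨0, 0, 0, 0, 0, 0, 122212, 0, 0, 0, 0, 0, 0⟩ ⟨2048, -2, -865, 14, -212, 1155, 92882, 0, 0, 0, 0, 0, 0⟩)))))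
    (.s2
    (.leaf (.box ⟨2048, -1, 320, 7, -28, 512, 297383, 0, 0, 0, 0, 0, 0⟩ ⟨0, 0, 0, 0, 0, 0, 160134, 0, 0, 0, 0, 0, 0⟩ ⟨0, 0, 0, 0, 0, 0, 160134, 0, 0, 0, 0, 0, 0⟩ ⟨0, 0, 0, 0, 0, 0, 109567, 0, 0, 0, 0, 0, 0⟩ ⟨0, 0, 0, 0, 0, 0, 109567, 0, 0, 0, 0, 0, 0⟩ ⟨2048, -4, 79, 23, -91, 473, 83271, 0, 0, 0, 0, 0, 0⟩))
    (.leaf (.box ⟨2048, -2, -157, 8, -20, 378, 271849, 0, 0, 0, 0, 0, 0⟩ ⟨0, 0, 0, 0, 0, 0, 146437, 0, 0, 0, 0, 0, 0⟩ ⟨0, 0, 0, 0, 0, 0, 146437, 0, 0, 0, 0, 0, 0⟩ ⟨0, 0, 0, 0, 0, 0, 100208, 0, 0, 0, 0, 0, 0⟩ ⟨0, 0, 0, 0, 0, 0, 100208, 0, 0, 0, 0, 0, 0⟩ ⟨2048, -8, -384, 29, -64, 347, 76163, 0, 0, 0, 0, 0, 0⟩)))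

/-- A piece of the tree. -/
noncomputable def tree5 : Tree LeafX :=
  .s0
    (.s2
    (.s3
    (.leaf (.box ⟨1681, -2, -2048, 14, -51, 892, 342471, 0, 0, 0, 0, 0, 0⟩ ⟨0, 0, 0, 0, 0, 0, 207464, 0, 0, 0, 0, 0, 0⟩ ⟨0, 0, 0, 0, 0, 0, 207464, 0, 0, 0, 0, 0, 0⟩ ⟨0, 0, 0, 0, 0, 0, 148803, 0, 0, 0, 0, 0, 0⟩ ⟨0, 0, 0, 0, 0, 0, 148803, 0, 0, 0, 0, 0, 0⟩ ⟨1349, -6, -2048, 39, -153, 787, 116003, 0, 0, 0, 0, 0, 0⟩))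
    (.s2
    (.leaf (.box ⟨897, -1, -2048, 10, -44, 825, 367671, 0, 0, 0, 0, 0, 0⟩ ⟨0, 0, 0, 0, 0, 0, 193322, 0, 0, 0, 0, 0, 0⟩ ⟨0, 0, 0, 0, 0, 0, 193322, 0, 0, 0, 0, 0, 0⟩ ⟨0, 0, 0, 0, 0, 0, 131137, 0, 0, 0, 0, 0, 0⟩ ⟨0, 0, 0, 0, 0, 0, 131137, 0, 0, 0, 0, 0, 0⟩ ⟨812, -4, -2048, 33, -147, 754, 99221, 0, 0, 0, 0, 0, 0⟩))
    (.leaf (.box ⟨894, -1, -2048, 10, -42, 809, 354779, 0, 0, 0, 0, 0, 0⟩ ⟨0, 0, 0, 0, 0, 0, 186539, 0, 0, 0, 0, 0, 0⟩ ⟨0, 0, 0, 0, 0, 0, 186539, 0, 0, 0, 0, 0, 0⟩ ⟨0, 0, 0, 0, 0, 0, 126535, 0, 0, 0, 0, 0, 0⟩ ⟨0, 0, 0, 0, 0, 0, 126535, 0, 0, 0, 0, 0, 0⟩ ⟨1102, -4, -2048, 32, -150, 772, 95738, 0, 0, 0, 0, 0, 0⟩))))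
    (.leaf (.box ⟨1540, -2, -2048, 12, -42, 774, 318298, 0, 0, 0, 0, 0, 0⟩ ⟨0, 0, 0, 0, 0, 0, 171233, 0, 0, 0, 0, 0, 0⟩ ⟨0, 0, 0, 0, 0, 0, 171233, 0, 0, 0, 0, 0, 0⟩ ⟨0, 0, 0, 0, 0, 0, 117120, 0, 0, 0, 0, 0, 0⟩ ⟨0, 0, 0, 0, 0, 0, 117120, 0, 0, 0, 0, 0, 0⟩ ⟨1779, -7, -2048, 43, -151, 779, 88995, 0, 0, 0, 0, 0, 0⟩)))
    (.leaf (.box ⟨2048, -3, -888, 19, -44, 673, 324548, 0, 0, 0, 0, 0, 0⟩ ⟨0, 0, 0, 0, 0, 0, 174551, 0, 0, 0, 0, 0, 0⟩ ⟨0, 0, 0, 0, 0, 0, 174551, 0, 0, 0, 0, 0, 0⟩ ⟨0, 0, 0, 0, 0, 0, 119378, 0, 0, 0, 0, 0, 0⟩ ⟨0, 0, 0, 0, 0, 0, 119378, 0, 0, 0, 0, 0, 0⟩ ⟨2048, -9, -1148, 65, -148, 635, 90706, 0, 0, 0, 0, 0, 0⟩))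

/-- A piece of the tree. -/
noncomputable def tree6 : Tree LeafX :=
  .s0
    (.s1
    (.s3
    (.s3
    (.leaf (.box ⟨778, -2, -2586, 6, -61, 1191, 356594, 0, 0, 0, 0, 0, 0⟩ ⟨0, 0, 0, 0, 0, 0, 230757, 0, 0, 0, 0, 0, 0⟩ ⟨0, 0, 0, 0, 0, 0, 230757, 0, 0, 0, 0, 0, 0⟩ ⟨0, 0, 0, 0, 0, 0, 170567, 0, 0, 0, 0, 0, 0⟩ ⟨0, 0, 0, 0, 0, 0, 170567, 0, 0, 0, 0, 0, 0⟩ ⟨582, -3, -2048, 12, -112, 839, 135280, 0, 0, 0, 0, 0, 0⟩))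
    (.s2
    (.leaf (.box ⟨808, -2, -2955, 6, -65, 1348, 377009, 0, 0, 0, 0, 0, 0⟩ ⟨0, 0, 0, 0, 0, 0, 226256, 0, 0, 0, 0, 0, 0⟩ ⟨0, 0, 0, 0, 0, 0, 226256, 0, 0, 0, 0, 0, 0⟩ ⟨0, 0, 0, 0, 0, 0, 161627, 0, 0, 0, 0, 0, 0⟩ ⟨0, 0, 0, 0, 0, 0, 161627, 0, 0, 0, 0, 0, 0⟩ ⟨547, -3, -2048, 11, -117, 813, 125716, 0, 0, 0, 0, 0, 0⟩))
    (.leaf (.box ⟨725, -2, -2562, 6, -60, 1210, 363113, 0, 0, 0, 0, 0, 0⟩ ⟨0, 0, 0, 0, 0, 0, 217937, 0, 0, 0, 0, 0, 0⟩ ⟨0, 0, 0, 0, 0, 0, 217937, 0, 0, 0, 0, 0, 0⟩ ⟨0, 0, 0, 0, 0, 0, 155690, 0, 0, 0, 0, 0, 0⟩ ⟨0, 0, 0, 0, 0, 0, 155690, 0, 0, 0, 0, 0, 0⟩ ⟨558, -3, -2048, 10, -123, 833, 121101, 0, 0, 0, 0, 0, 0⟩))))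
    (.s3
    (.s2
    (.leaf (.box ⟨749, -1, -2723, 6, -59, 1242, 384005, 0, 0, 0, 0, 0, 0⟩ ⟨0, 0, 0, 0, 0, 0, 214353, 0, 0, 0, 0, 0, 0⟩ ⟨0, 0, 0, 0, 0, 0, 214353, 0, 0, 0, 0, 0, 0⟩ ⟨0, 0, 0, 0, 0, 0, 148671, 0, 0, 0, 0, 0, 0⟩ ⟨0, 0, 0, 0, 0, 0, 148671, 0, 0, 0, 0, 0, 0⟩ ⟨544, -3, -2048, 11, -127, 802, 113800, 0, 0, 0, 0, 0, 0⟩))
    (.leaf (.box ⟨898, -1, -3149, 6, -71, 1478, 369869, 0, 0, 0, 0, 0, 0⟩ ⟨0, 0, 0, 0, 0, 0, 206487, 0, 0, 0, 0, 0, 0⟩ ⟨0, 0, 0, 0, 0, 0, 206487, 0, 0, 0, 0, 0, 0⟩ ⟨0, 0, 0, 0, 0, 0, 143221, 0, 0, 0, 0, 0, 0⟩ ⟨0, 0, 0, 0, 0, 0, 143221, 0, 0, 0, 0, 0, 0⟩ ⟨554, -3, -2048, 11, -132, 817, 109631, 0, 0, 0, 0, 0, 0⟩)))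
    (.leaf (.box ⟨749, -1, -2524, 6, -55, 1163, 376873, 0, 0, 0, 0, 0, 0⟩ ⟨0, 0, 0, 0, 0, 0, 196198, 0, 0, 0, 0, 0, 0⟩ ⟨0, 0, 0, 0, 0, 0, 196198, 0, 0, 0, 0, 0, 0⟩ ⟨0, 0, 0, 0, 0, 0, 132619, 0, 0, 0, 0, 0, 0⟩ ⟨0, 0, 0, 0, 0, 0, 132619, 0, 0, 0, 0, 0, 0⟩ ⟨557, -3, -2048, 13, -141, 797, 100161, 0, 0, 0, 0, 0, 0⟩))))
    (.s3
    (.s3
    (.leaf (.box ⟨1057, -6, -2048, 27, -45, 1338, 362160, 0, 0, 0, 0, 0, 0⟩ ⟨0, 0, 0, 0, 0, 0, 234348, 0, 0, 0, 0, 0, 0⟩ ⟨0, 0, 0, 0, 0, 0, 234348, 0, 0, 0, 0, 0, 0⟩ ⟨0, 0, 0, 0, 0, 0, 173217, 0, 0, 0, 0, 0, 0⟩ ⟨0, 0, 0, 0, 0, 0, 173217, 0, 0, 0, 0, 0, 0⟩ ⟨1096, -2, -2048, 9, -140, 1079, 137380, 0, 0, 0, 0, 0, 0⟩))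
    (.leaf (.box ⟨1472, -1, -2197, 6, -77, 1599, 368769, 0, 0, 0, 0, 0, 0⟩ ⟨0, 0, 0, 0, 0, 0, 221317, 0, 0, 0, 0, 0, 0⟩ ⟨0, 0, 0, 0, 0, 0, 221317, 0, 0, 0, 0, 0, 0⟩ ⟨0, 0, 0, 0, 0, 0, 158101, 0, 0, 0, 0, 0, 0⟩ ⟨0, 0, 0, 0, 0, 0, 158101, 0, 0, 0, 0, 0, 0⟩ ⟨1041, -2, -2048, 9, -154, 1064, 122974, 0, 0, 0, 0, 0, 0⟩)))
    (.s2
    (.leaf (.box ⟨1861, -1, -3949, 6, -103, 2271, 390284, 0, 0, 0, 0, 0, 0⟩ ⟨0, 0, 0, 0, 0, 0, 205510, 0, 0, 0, 0, 0, 0⟩ ⟨0, 0, 0, 0, 0, 0, 205510, 0, 0, 0, 0, 0, 0⟩ ⟨0, 0, 0, 0, 0, 0, 139477, 0, 0, 0, 0, 0, 0⟩ ⟨0, 0, 0, 0, 0, 0, 139477, 0, 0, 0, 0, 0, 0⟩ ⟨921, -2, -2048, 9, -170, 1018, 105559, 0, 0, 0, 0, 0, 0⟩))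
    (.leaf (.box ⟨1707, -1, -3323, 6, -95, 2026, 375617, 0, 0, 0, 0, 0, 0⟩ ⟨0, 0, 0, 0, 0, 0, 197815, 0, 0, 0, 0, 0, 0⟩ ⟨0, 0, 0, 0, 0, 0, 197815, 0, 0, 0, 0, 0, 0⟩ ⟨0, 0, 0, 0, 0, 0, 134261, 0, 0, 0, 0, 0, 0⟩ ⟨0, 0, 0, 0, 0, 0, 134261, 0, 0, 0, 0, 0, 0⟩ ⟨1210, -2, -2048, 12, -218, 1260, 101614, 0, 0, 0, 0, 0, 0⟩)))))
    (.s1
    (.s3
    (.leaf (.box ⟨1366, -3, -2048, 10, -61, 1089, 359455, 0, 0, 0, 0, 0, 0⟩ ⟨0, 0, 0, 0, 0, 0, 218031, 0, 0, 0, 0, 0, 0⟩ ⟨0, 0, 0, 0, 0, 0, 218031, 0, 0, 0, 0, 0, 0⟩ ⟨0, 0, 0, 0, 0, 0, 156469, 0, 0, 0, 0, 0, 0⟩ ⟨0, 0, 0, 0, 0, 0, 156469, 0, 0, 0, 0, 0, 0⟩ ⟨1220, -9, -2048, 27, -155, 947, 122017, 0, 0, 0, 0, 0, 0⟩))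
    (.leaf (.box ⟨759, -2, -2048, 8, -50, 955, 372967, 0, 0, 0, 0, 0, 0⟩ ⟨0, 0, 0, 0, 0, 0, 196524, 0, 0, 0, 0, 0, 0⟩ ⟨0, 0, 0, 0, 0, 0, 196524, 0, 0, 0, 0, 0, 0⟩ ⟨0, 0, 0, 0, 0, 0, 133410, 0, 0, 0, 0, 0, 0⟩ ⟨0, 0, 0, 0, 0, 0, 133410, 0, 0, 0, 0, 0, 0⟩ ⟨658, -7, -2048, 25, -159, 822, 100980, 0, 0, 0, 0, 0, 0⟩)))
    (.s3
    (.s2
    (.leaf (.box ⟨589, -2, -2048, 6, -49, 976, 378018, 0, 0, 0, 0, 0, 0⟩ ⟨0, 0, 0, 0, 0, 0, 229285, 0, 0, 0, 0, 0, 0⟩ ⟨0, 0, 0, 0, 0, 0, 229285, 0, 0, 0, 0, 0, 0⟩ ⟨0, 0, 0, 0, 0, 0, 164544, 0, 0, 0, 0, 0, 0⟩ ⟨0, 0, 0, 0, 0, 0, 164544, 0, 0, 0, 0, 0, 0⟩ ⟨555, -5, -2048, 15, -132, 889, 128313, 0, 0, 0, 0, 0, 0⟩))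
    (.leaf (.box ⟨609, -2, -2048, 6, -54, 1037, 364757, 0, 0, 0, 0, 0, 0⟩ ⟨0, 0, 0, 0, 0, 0, 221255, 0, 0, 0, 0, 0, 0⟩ ⟨0, 0, 0, 0, 0, 0, 221255, 0, 0, 0, 0, 0, 0⟩ ⟨0, 0, 0, 0, 0, 0, 158786, 0, 0, 0, 0, 0, 0⟩ ⟨0, 0, 0, 0, 0, 0, 158786, 0, 0, 0, 0, 0, 0⟩ ⟨558, -6, -2048, 17, -142, 934, 123825, 0, 0, 0, 0, 0, 0⟩)))
    (.s2
    (.leaf (.box ⟨417, -2, -2494, 6, -55, 1145, 392215, 0, 0, 0, 0, 0, 0⟩ ⟨0, 0, 0, 0, 0, 0, 206658, 0, 0, 0, 0, 0, 0⟩ ⟨0, 0, 0, 0, 0, 0, 206658, 0, 0, 0, 0, 0, 0⟩ ⟨0, 0, 0, 0, 0, 0, 140288, 0, 0, 0, 0, 0, 0⟩ ⟨0, 0, 0, 0, 0, 0, 140288, 0, 0, 0, 0, 0, 0⟩ ⟨367, -4, -2048, 16, -148, 841, 106185, 0, 0, 0, 0, 0, 0⟩))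
    (.leaf (.box ⟨405, -2, -2421, 6, -57, 1160, 378489, 0, 0, 0, 0, 0, 0⟩ ⟨0, 0, 0, 0, 0, 0, 199447, 0, 0, 0, 0, 0, 0⟩ ⟨0, 0, 0, 0, 0, 0, 199447, 0, 0, 0, 0, 0, 0⟩ ⟨0, 0, 0, 0, 0, 0, 135398, 0, 0, 0, 0, 0, 0⟩ ⟨0, 0, 0, 0, 0, 0, 135398, 0, 0, 0, 0, 0, 0⟩ ⟨351, -4, -2048, 16, -157, 868, 102486, 0, 0, 0, 0, 0, 0⟩)))))

/-- A piece of the tree. -/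
noncomputable def tree7 : Tree LeafX :=
  .s2
    (.s1
    (.s3
    (.leaf (.box ⟨1340, -6, -2048, 18, -68, 1320, 343333, 0, 0, 0, 0, 0, 0⟩ ⟨0, 0, 0, 0, 0, 0, 208215, 0, 0, 0, 0, 0, 0⟩ ⟨0, 0, 0, 0, 0, 0, 208215, 0, 0, 0, 0, 0, 0⟩ ⟨0, 0, 0, 0, 0, 0, 149414, 0, 0, 0, 0, 0, 0⟩ ⟨0, 0, 0, 0, 0, 0, 149414, 0, 0, 0, 0, 0, 0⟩ ⟨1268, -10, -2048, 30, -139, 889, 116510, 0, 0, 0, 0, 0, 0⟩))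
    (.leaf (.box ⟨760, -2, -2048, 9, -49, 959, 356155, 0, 0, 0, 0, 0, 0⟩ ⟨0, 0, 0, 0, 0, 0, 187608, 0, 0, 0, 0, 0, 0⟩ ⟨0, 0, 0, 0, 0, 0, 187608, 0, 0, 0, 0, 0, 0⟩ ⟨0, 0, 0, 0, 0, 0, 127344, 0, 0, 0, 0, 0, 0⟩ ⟨0, 0, 0, 0, 0, 0, 127344, 0, 0, 0, 0, 0, 0⟩ ⟨684, -8, -2048, 29, -149, 801, 96383, 0, 0, 0, 0, 0, 0⟩)))
    (.s0
    (.leaf (.box ⟨1396, -1, -2404, 6, -75, 1508, 348432, 0, 0, 0, 0, 0, 0⟩ ⟨0, 0, 0, 0, 0, 0, 187686, 0, 0, 0, 0, 0, 0⟩ ⟨0, 0, 0, 0, 0, 0, 187686, 0, 0, 0, 0, 0, 0⟩ ⟨0, 0, 0, 0, 0, 0, 128434, 0, 0, 0, 0, 0, 0⟩ ⟨0, 0, 0, 0, 0, 0, 128434, 0, 0, 0, 0, 0, 0⟩ ⟨1266, -2, -2048, 11, -166, 936, 97616, 0, 0, 0, 0, 0, 0⟩))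
    (.leaf (.box ⟨670, -2, -2048, 7, -53, 1025, 351925, 0, 0, 0, 0, 0, 0⟩ ⟨0, 0, 0, 0, 0, 0, 189635, 0, 0, 0, 0, 0, 0⟩ ⟨0, 0, 0, 0, 0, 0, 189635, 0, 0, 0, 0, 0, 0⟩ ⟨0, 0, 0, 0, 0, 0, 129785, 0, 0, 0, 0, 0, 0⟩ ⟨0, 0, 0, 0, 0, 0, 129785, 0, 0, 0, 0, 0, 0⟩ ⟨587, -7, -2048, 23, -180, 972, 98650, 0, 0, 0, 0, 0, 0⟩))))
    (.leaf (.box ⟨1441, -4, -2048, 13, -54, 1035, 330473, 0, 0, 0, 0, 0, 0⟩ ⟨0, 0, 0, 0, 0, 0, 178038, 0, 0, 0, 0, 0, 0⟩ ⟨0, 0, 0, 0, 0, 0, 178038, 0, 0, 0, 0, 0, 0⟩ ⟨0, 0, 0, 0, 0, 0, 121839, 0, 0, 0, 0, 0, 0⟩ ⟨0, 0, 0, 0, 0, 0, 121839, 0, 0, 0, 0, 0, 0⟩ ⟨1336, -11, -2048, 37, -161, 864, 92606, 0, 0, 0, 0, 0, 0⟩))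

/-- A piece of the tree. -/
noncomputable def tree8 : Tree LeafX :=
  .s3
    (.leaf (.box ⟨2048, -6, -1109, 18, -23, 415, 273303, 0, 0, 0, 0, 0, 0⟩ ⟨0, 0, 0, 0, 0, 0, 165557, 0, 0, 0, 0, 0, 0⟩ ⟨0, 0, 0, 0, 0, 0, 165557, 0, 0, 0, 0, 0, 0⟩ ⟨0, 0, 0, 0, 0, 0, 118743, 0, 0, 0, 0, 0, 0⟩ ⟨0, 0, 0, 0, 0, 0, 118743, 0, 0, 0, 0, 0, 0⟩ ⟨2048, -18, -1339, 55, -67, 422, 92568, 0, 0, 0, 0, 0, 0⟩))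
    (.leaf (.box ⟨2048, -6, -1599, 21, -32, 612, 283116, 0, 0, 0, 0, 0, 0⟩ ⟨0, 0, 0, 0, 0, 0, 148850, 0, 0, 0, 0, 0, 0⟩ ⟨0, 0, 0, 0, 0, 0, 148850, 0, 0, 0, 0, 0, 0⟩ ⟨0, 0, 0, 0, 0, 0, 100967, 0, 0, 0, 0, 0, 0⟩ ⟨0, 0, 0, 0, 0, 0, 100967, 0, 0, 0, 0, 0, 0⟩ ⟨2047, -19, -2048, 71, -130, 627, 76392, 0, 0, 0, 0, 0, 0⟩))

/-- A piece of the tree. -/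
noncomputable def tree9 : Tree LeafX :=
  .s0
    (.s2
    (.leaf (.box ⟨2614, 1, 1393, 6, -30, 531, 326786, 0, 0, 0, 0, 0, 0⟩ ⟨0, 0, 0, 0, 0, 0, 175113, 0, 0, 0, 0, 0, 0⟩ ⟨0, 0, 0, 0, 0, 0, 175113, 0, 0, 0, 0, 0, 0⟩ ⟨0, 0, 0, 0, 0, 0, 119602, 0, 0, 0, 0, 0, 0⟩ ⟨0, 0, 0, 0, 0, 0, 119602, 0, 0, 0, 0, 0, 0⟩ ⟨2048, 3, 1075, 18, -85, 423, 90813, 0, 0, 0, 0, 0, 0⟩))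
    (.leaf (.box ⟨2048, 1, 1084, 7, -18, 288, 272343, 0, 0, 0, 0, 0, 0⟩ ⟨0, 0, 0, 0, 0, 0, 145958, 0, 0, 0, 0, 0, 0⟩ ⟨0, 0, 0, 0, 0, 0, 145958, 0, 0, 0, 0, 0, 0⟩ ⟨0, 0, 0, 0, 0, 0, 99694, 0, 0, 0, 0, 0, 0⟩ ⟨0, 0, 0, 0, 0, 0, 99694, 0, 0, 0, 0, 0, 0⟩ ⟨2048, 2, 1000, 26, -65, 295, 75699, 0, 0, 0, 0, 0, 0⟩)))
    (.s1
    (.s2
    (.s0
    (.s2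
    (.leaf (.box ⟨2938, 0, -1493, 6, -90, 1867, 366746, 0, 0, 0, 0, 0, 0⟩ ⟨0, 0, 0, 0, 0, 0, 197473, 0, 0, 0, 0, 0, 0⟩ ⟨0, 0, 0, 0, 0, 0, 197473, 0, 0, 0, 0, 0, 0⟩ ⟨0, 0, 0, 0, 0, 0, 135112, 0, 0, 0, 0, 0, 0⟩ ⟨0, 0, 0, 0, 0, 0, 135112, 0, 0, 0, 0, 0, 0⟩ ⟨2048, -1, -379, 13, -190, 1101, 102684, 0, 0, 0, 0, 0, 0⟩))
    (.leaf (.box ⟨2413, -1, -852, 6, -73, 1414, 338980, 0, 0, 0, 0, 0, 0⟩ ⟨0, 0, 0, 0, 0, 0, 182568, 0, 0, 0, 0, 0, 0⟩ ⟨0, 0, 0, 0, 0, 0, 182568, 0, 0, 0, 0, 0, 0⟩ ⟨0, 0, 0, 0, 0, 0, 124925, 0, 0, 0, 0, 0, 0⟩ ⟨0, 0, 0, 0, 0, 0, 124925, 0, 0, 0, 0, 0, 0⟩ ⟨2048, -1, -912, 15, -212, 1153, 94947, 0, 0, 0, 0, 0, 0⟩)))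
    (.s1
    (.s2
    (.s3
    (.s2
    (.leaf (.box ⟨887, -1, -2768, 6, -68, 1412, 383171, 0, 0, 0, 0, 0, 0⟩ ⟨0, 0, 0, 0, 0, 0, 232360, 0, 0, 0, 0, 0, 0⟩ ⟨0, 0, 0, 0, 0, 0, 232360, 0, 0, 0, 0, 0, 0⟩ ⟨0, 0, 0, 0, 0, 0, 166735, 0, 0, 0, 0, 0, 0⟩ ⟨0, 0, 0, 0, 0, 0, 166735, 0, 0, 0, 0, 0, 0⟩ ⟨673, -3, -2048, 11, -138, 975, 130015, 0, 0, 0, 0, 0, 0⟩))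
    (.leaf (.box ⟨866, -1, -2656, 6, -72, 1452, 369356, 0, 0, 0, 0, 0, 0⟩ ⟨0, 0, 0, 0, 0, 0, 223999, 0, 0, 0, 0, 0, 0⟩ ⟨0, 0, 0, 0, 0, 0, 223999, 0, 0, 0, 0, 0, 0⟩ ⟨0, 0, 0, 0, 0, 0, 160741, 0, 0, 0, 0, 0, 0⟩ ⟨0, 0, 0, 0, 0, 0, 160741, 0, 0, 0, 0, 0, 0⟩ ⟨548, -3, -2048, 13, -165, 1125, 125343, 0, 0, 0, 0, 0, 0⟩)))
    (.leaf (.box ⟨1091, -1, -3113, 6, -78, 1636, 383155, 0, 0, 0, 0, 0, 0⟩ ⟨0, 0, 0, 0, 0, 0, 201834, 0, 0, 0, 0, 0, 0⟩ ⟨0, 0, 0, 0, 0, 0, 201834, 0, 0, 0, 0, 0, 0⟩ ⟨0, 0, 0, 0, 0, 0, 137001, 0, 0, 0, 0, 0, 0⟩ ⟨0, 0, 0, 0, 0, 0, 137001, 0, 0, 0, 0, 0, 0⟩ ⟨853, -2, -2048, 12, -155, 887, 103692, 0, 0, 0, 0, 0, 0⟩)))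
    (.s3
    (.leaf (.box ⟨703, -2, -2057, 6, -60, 1165, 343198, 0, 0, 0, 0, 0, 0⟩ ⟨0, 0, 0, 0, 0, 0, 208180, 0, 0, 0, 0, 0, 0⟩ ⟨0, 0, 0, 0, 0, 0, 208180, 0, 0, 0, 0, 0, 0⟩ ⟨0, 0, 0, 0, 0, 0, 149403, 0, 0, 0, 0, 0, 0⟩ ⟨0, 0, 0, 0, 0, 0, 149403, 0, 0, 0, 0, 0, 0⟩ ⟨697, -4, -2048, 15, -159, 1040, 116508, 0, 0, 0, 0, 0, 0⟩))
    (.leaf (.box ⟨882, -1, -2500, 6, -69, 1392, 356123, 0, 0, 0, 0, 0, 0⟩ ⟨0, 0, 0, 0, 0, 0, 187666, 0, 0, 0, 0, 0, 0⟩ ⟨0, 0, 0, 0, 0, 0, 187666, 0, 0, 0, 0, 0, 0⟩ ⟨0, 0, 0, 0, 0, 0, 127401, 0, 0, 0, 0, 0, 0⟩ ⟨0, 0, 0, 0, 0, 0, 127401, 0, 0, 0, 0, 0, 0⟩ ⟨700, -4, -2048, 16, -181, 995, 96433, 0, 0, 0, 0, 0, 0⟩))))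
    (.s2
    (.leaf (.box ⟨1948, -1, -3354, 6, -106, 2193, 373229, 0, 0, 0, 0, 0, 0⟩ ⟨0, 0, 0, 0, 0, 0, 200970, 0, 0, 0, 0, 0, 0⟩ ⟨0, 0, 0, 0, 0, 0, 200970, 0, 0, 0, 0, 0, 0⟩ ⟨0, 0, 0, 0, 0, 0, 137506, 0, 0, 0, 0, 0, 0⟩ ⟨0, 0, 0, 0, 0, 0, 137506, 0, 0, 0, 0, 0, 0⟩ ⟨1356, -1, -2048, 11, -169, 982, 104504, 0, 0, 0, 0, 0, 0⟩))
    (.leaf (.box ⟨1329, -1, -2059, 6, -76, 1491, 346251, 0, 0, 0, 0, 0, 0⟩ ⟨0, 0, 0, 0, 0, 0, 186487, 0, 0, 0, 0, 0, 0⟩ ⟨0, 0, 0, 0, 0, 0, 186487, 0, 0, 0, 0, 0, 0⟩ ⟨0, 0, 0, 0, 0, 0, 127608, 0, 0, 0, 0, 0, 0⟩ ⟨0, 0, 0, 0, 0, 0, 127608, 0, 0, 0, 0, 0, 0⟩ ⟨1209, -3, -2048, 18, -239, 1318, 96986, 0, 0, 0, 0, 0, 0⟩)))))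
    (.leaf (.box ⟨2048, -3, -1111, 12, -37, 737, 289379, 0, 0, 0, 0, 0, 0⟩ ⟨0, 0, 0, 0, 0, 0, 155998, 0, 0, 0, 0, 0, 0⟩ ⟨0, 0, 0, 0, 0, 0, 155998, 0, 0, 0, 0, 0, 0⟩ ⟨0, 0, 0, 0, 0, 0, 106781, 0, 0, 0, 0, 0, 0⟩ ⟨0, 0, 0, 0, 0, 0, 106781, 0, 0, 0, 0, 0, 0⟩ ⟨2048, -11, -1326, 40, -122, 676, 81171, 0, 0, 0, 0, 0, 0⟩)))
    (.leaf (.box ⟨2048, 1, -27, 12, -32, 584, 292998, 0, 0, 0, 0, 0, 0⟩ ⟨0, 0, 0, 0, 0, 0, 157789, 0, 0, 0, 0, 0, 0⟩ ⟨0, 0, 0, 0, 0, 0, 157789, 0, 0, 0, 0, 0, 0⟩ ⟨0, 0, 0, 0, 0, 0, 107966, 0, 0, 0, 0, 0, 0⟩ ⟨0, 0, 0, 0, 0, 0, 107966, 0, 0, 0, 0, 0, 0⟩ ⟨2048, 2, -646, 36, -87, 439, 82056, 0, 0, 0, 0, 0, 0⟩)))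

/-- A piece of the tree. -/
noncomputable def tree10 : Tree LeafX :=
  .s1
    (.leaf (.box ⟨2048, 6, 957, 51, -45, 453, 295976, 0, 0, 0, 0, 0, 0⟩ ⟨0, 0, 0, 0, 0, 0, 159032, 0, 0, 0, 0, 0, 0⟩ ⟨0, 0, 0, 0, 0, 0, 159032, 0, 0, 0, 0, 0, 0⟩ ⟨0, 0, 0, 0, 0, 0, 108726, 0, 0, 0, 0, 0, 0⟩ ⟨0, 0, 0, 0, 0, 0, 108726, 0, 0, 0, 0, 0, 0⟩ ⟨2048, 20, 735, 161, -135, 381, 82598, 0, 0, 0, 0, 0, 0⟩))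
    (.s2
    (.s1
    (.leaf (.box ⟨2048, -1, 530, 42, -58, 672, 342928, 0, 0, 0, 0, 0, 0⟩ ⟨0, 0, 0, 0, 0, 0, 184795, 0, 0, 0, 0, 0, 0⟩ ⟨0, 0, 0, 0, 0, 0, 184795, 0, 0, 0, 0, 0, 0⟩ ⟨0, 0, 0, 0, 0, 0, 126474, 0, 0, 0, 0, 0, 0⟩ ⟨0, 0, 0, 0, 0, 0, 126474, 0, 0, 0, 0, 0, 0⟩ ⟨2048, -4, 412, 139, -187, 608, 96134, 0, 0, 0, 0, 0, 0⟩))
    (.s0
    (.s0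
    (.s2
    (.leaf (.box ⟨2048, -6, -1859, 19, -96, 1676, 369345, 0, 0, 0, 0, 0, 0⟩ ⟨0, 0, 0, 0, 0, 0, 199053, 0, 0, 0, 0, 0, 0⟩ ⟨0, 0, 0, 0, 0, 0, 199053, 0, 0, 0, 0, 0, 0⟩ ⟨0, 0, 0, 0, 0, 0, 136238, 0, 0, 0, 0, 0, 0⟩ ⟨0, 0, 0, 0, 0, 0, 136238, 0, 0, 0, 0, 0, 0⟩ ⟨1854, -16, -2048, 51, -180, 952, 103558, 0, 0, 0, 0, 0, 0⟩))
    (.leaf (.box ⟨2048, -5, -1885, 16, -72, 1239, 346068, 0, 0, 0, 0, 0, 0⟩ ⟨0, 0, 0, 0, 0, 0, 186537, 0, 0, 0, 0, 0, 0⟩ ⟨0, 0, 0, 0, 0, 0, 186537, 0, 0, 0, 0, 0, 0⟩ ⟨0, 0, 0, 0, 0, 0, 127679, 0, 0, 0, 0, 0, 0⟩ ⟨0, 0, 0, 0, 0, 0, 127679, 0, 0, 0, 0, 0, 0⟩ ⟨1967, -16, -2048, 50, -237, 1141, 97055, 0, 0, 0, 0, 0, 0⟩)))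
    (.leaf (.box ⟨2048, -4, -661, 19, -70, 1035, 356253, 0, 0, 0, 0, 0, 0⟩ ⟨0, 0, 0, 0, 0, 0, 192014, 0, 0, 0, 0, 0, 0⟩ ⟨0, 0, 0, 0, 0, 0, 192014, 0, 0, 0, 0, 0, 0⟩ ⟨0, 0, 0, 0, 0, 0, 131425, 0, 0, 0, 0, 0, 0⟩ ⟨0, 0, 0, 0, 0, 0, 131425, 0, 0, 0, 0, 0, 0⟩ ⟨2048, -15, -820, 66, -246, 1016, 99901, 0, 0, 0, 0, 0, 0⟩)))
    (.leaf (.box ⟨2048, -1, 646, 34, -87, 1023, 370401, 0, 0, 0, 0, 0, 0⟩ ⟨0, 0, 0, 0, 0, 0, 199629, 0, 0, 0, 0, 0, 0⟩ ⟨0, 0, 0, 0, 0, 0, 199629, 0, 0, 0, 0, 0, 0⟩ ⟨0, 0, 0, 0, 0, 0, 136634, 0, 0, 0, 0, 0, 0⟩ ⟨0, 0, 0, 0, 0, 0, 136634, 0, 0, 0, 0, 0, 0⟩ ⟨2048, -4, 555, 120, -298, 985, 103860, 0, 0, 0, 0, 0, 0⟩))))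
    (.leaf (.box ⟨2048, -5, 418, 41, -42, 525, 302176, 0, 0, 0, 0, 0, 0⟩ ⟨0, 0, 0, 0, 0, 0, 162921, 0, 0, 0, 0, 0, 0⟩ ⟨0, 0, 0, 0, 0, 0, 162921, 0, 0, 0, 0, 0, 0⟩ ⟨0, 0, 0, 0, 0, 0, 111525, 0, 0, 0, 0, 0, 0⟩ ⟨0, 0, 0, 0, 0, 0, 111525, 0, 0, 0, 0, 0, 0⟩ ⟨2048, -23, -168, 194, -121, 551, 84780, 0, 0, 0, 0, 0, 0⟩)))

/-- A piece of the tree. -/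
noncomputable def tree11 : Tree LeafX :=
  .s2
    (.s2
    (.s0
    (.s1
    (.s3
    (.s2
    (.leaf (.box ⟨928, -2, -2048, 7, -54, 1037, 386030, 0, 0, 0, 0, 0, 0⟩ ⟨0, 0, 0, 0, 0, 0, 234178, 0, 0, 0, 0, 0, 0⟩ ⟨0, 0, 0, 0, 0, 0, 234178, 0, 0, 0, 0, 0, 0⟩ ⟨0, 0, 0, 0, 0, 0, 168066, 0, 0, 0, 0, 0, 0⟩ ⟨0, 0, 0, 0, 0, 0, 168066, 0, 0, 0, 0, 0, 0⟩ ⟨891, -6, -2048, 20, -149, 974, 131064, 0, 0, 0, 0, 0, 0⟩))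
    (.leaf (.box ⟨1501, -4, -2048, 12, -89, 1669, 373172, 0, 0, 0, 0, 0, 0⟩ ⟨0, 0, 0, 0, 0, 0, 226390, 0, 0, 0, 0, 0, 0⟩ ⟨0, 0, 0, 0, 0, 0, 226390, 0, 0, 0, 0, 0, 0⟩ ⟨0, 0, 0, 0, 0, 0, 162481, 0, 0, 0, 0, 0, 0⟩ ⟨0, 0, 0, 0, 0, 0, 162481, 0, 0, 0, 0, 0, 0⟩ ⟨761, -8, -2048, 26, -193, 1229, 126710, 0, 0, 0, 0, 0, 0⟩)))
    (.leaf (.box ⟨618, -2, -2048, 6, -50, 980, 387290, 0, 0, 0, 0, 0, 0⟩ ⟨0, 0, 0, 0, 0, 0, 204132, 0, 0, 0, 0, 0, 0⟩ ⟨0, 0, 0, 0, 0, 0, 204132, 0, 0, 0, 0, 0, 0⟩ ⟨0, 0, 0, 0, 0, 0, 138590, 0, 0, 0, 0, 0, 0⟩ ⟨0, 0, 0, 0, 0, 0, 138590, 0, 0, 0, 0, 0, 0⟩ ⟨583, -5, -2048, 20, -166, 892, 104906, 0, 0, 0, 0, 0, 0⟩)))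
    (.s3
    (.s2
    (.leaf (.box ⟨522, -1, -2677, 6, -62, 1257, 390014, 0, 0, 0, 0, 0, 0⟩ ⟨0, 0, 0, 0, 0, 0, 236522, 0, 0, 0, 0, 0, 0⟩ ⟨0, 0, 0, 0, 0, 0, 236522, 0, 0, 0, 0, 0, 0⟩ ⟨0, 0, 0, 0, 0, 0, 169725, 0, 0, 0, 0, 0, 0⟩ ⟨0, 0, 0, 0, 0, 0, 169725, 0, 0, 0, 0, 0, 0⟩ ⟨372, -3, -2048, 13, -134, 927, 132348, 0, 0, 0, 0, 0, 0⟩))
    (.leaf (.box ⟨494, -1, -2395, 6, -61, 1207, 376580, 0, 0, 0, 0, 0, 0⟩ ⟨0, 0, 0, 0, 0, 0, 228388, 0, 0, 0, 0, 0, 0⟩ ⟨0, 0, 0, 0, 0, 0, 228388, 0, 0, 0, 0, 0, 0⟩ ⟨0, 0, 0, 0, 0, 0, 163893, 0, 0, 0, 0, 0, 0⟩ ⟨0, 0, 0, 0, 0, 0, 163893, 0, 0, 0, 0, 0, 0⟩ ⟨396, -3, -2048, 14, -147, 986, 127802, 0, 0, 0, 0, 0, 0⟩)))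
    (.leaf (.box ⟨587, -1, -2700, 6, -62, 1283, 390668, 0, 0, 0, 0, 0, 0⟩ ⟨0, 0, 0, 0, 0, 0, 205805, 0, 0, 0, 0, 0, 0⟩ ⟨0, 0, 0, 0, 0, 0, 205805, 0, 0, 0, 0, 0, 0⟩ ⟨0, 0, 0, 0, 0, 0, 139699, 0, 0, 0, 0, 0, 0⟩ ⟨0, 0, 0, 0, 0, 0, 139699, 0, 0, 0, 0, 0, 0⟩ ⟨428, -3, -2048, 14, -163, 921, 105736, 0, 0, 0, 0, 0, 0⟩))))
    (.s1
    (.leaf (.box ⟨2048, -4, -1304, 17, -86, 1440, 379769, 0, 0, 0, 0, 0, 0⟩ ⟨0, 0, 0, 0, 0, 0, 204685, 0, 0, 0, 0, 0, 0⟩ ⟨0, 0, 0, 0, 0, 0, 204685, 0, 0, 0, 0, 0, 0⟩ ⟨0, 0, 0, 0, 0, 0, 140096, 0, 0, 0, 0, 0, 0⟩ ⟨0, 0, 0, 0, 0, 0, 140096, 0, 0, 0, 0, 0, 0⟩ ⟨2048, -15, -1456, 59, -301, 1423, 106492, 0, 0, 0, 0, 0, 0⟩))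
    (.s3
    (.s2
    (.leaf (.box ⟨1134, -2, -2048, 9, -59, 1105, 394393, 0, 0, 0, 0, 0, 0⟩ ⟨0, 0, 0, 0, 0, 0, 239253, 0, 0, 0, 0, 0, 0⟩ ⟨0, 0, 0, 0, 0, 0, 239253, 0, 0, 0, 0, 0, 0⟩ ⟨0, 0, 0, 0, 0, 0, 171709, 0, 0, 0, 0, 0, 0⟩ ⟨0, 0, 0, 0, 0, 0, 171709, 0, 0, 0, 0, 0, 0⟩ ⟨1109, -6, -2048, 24, -168, 1062, 133905, 0, 0, 0, 0, 0, 0⟩))
    (.leaf (.box ⟨1248, -3, -2048, 10, -67, 1210, 381908, 0, 0, 0, 0, 0, 0⟩ ⟨0, 0, 0, 0, 0, 0, 231690, 0, 0, 0, 0, 0, 0⟩ ⟨0, 0, 0, 0, 0, 0, 231690, 0, 0, 0, 0, 0, 0⟩ ⟨0, 0, 0, 0, 0, 0, 166284, 0, 0, 0, 0, 0, 0⟩ ⟨0, 0, 0, 0, 0, 0, 166284, 0, 0, 0, 0, 0, 0⟩ ⟨1053, -8, -2048, 32, -221, 1357, 129676, 0, 0, 0, 0, 0, 0⟩)))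
    (.leaf (.box ⟨820, -1, -2048, 7, -52, 1001, 396355, 0, 0, 0, 0, 0, 0⟩ ⟨0, 0, 0, 0, 0, 0, 208909, 0, 0, 0, 0, 0, 0⟩ ⟨0, 0, 0, 0, 0, 0, 208909, 0, 0, 0, 0, 0, 0⟩ ⟨0, 0, 0, 0, 0, 0, 141833, 0, 0, 0, 0, 0, 0⟩ ⟨0, 0, 0, 0, 0, 0, 141833, 0, 0, 0, 0, 0, 0⟩ ⟨762, -5, -2048, 25, -181, 950, 107361, 0, 0, 0, 0, 0, 0⟩)))))
    (.s0
    (.s2
    (.s3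
    (.s1
    (.leaf (.box ⟨1085, -3, -2048, 9, -64, 1183, 360787, 0, 0, 0, 0, 0, 0⟩ ⟨0, 0, 0, 0, 0, 0, 218893, 0, 0, 0, 0, 0, 0⟩ ⟨0, 0, 0, 0, 0, 0, 218893, 0, 0, 0, 0, 0, 0⟩ ⟨0, 0, 0, 0, 0, 0, 157105, 0, 0, 0, 0, 0, 0⟩ ⟨0, 0, 0, 0, 0, 0, 157105, 0, 0, 0, 0, 0, 0⟩ ⟨1003, -8, -2048, 24, -172, 1075, 122520, 0, 0, 0, 0, 0, 0⟩))
    (.leaf (.box ⟨471, -2, -2054, 6, -56, 1086, 363686, 0, 0, 0, 0, 0, 0⟩ ⟨0, 0, 0, 0, 0, 0, 220587, 0, 0, 0, 0, 0, 0⟩ ⟨0, 0, 0, 0, 0, 0, 220587, 0, 0, 0, 0, 0, 0⟩ ⟨0, 0, 0, 0, 0, 0, 158301, 0, 0, 0, 0, 0, 0⟩ ⟨0, 0, 0, 0, 0, 0, 158301, 0, 0, 0, 0, 0, 0⟩ ⟨420, -4, -2048, 16, -154, 1014, 123444, 0, 0, 0, 0, 0, 0⟩)))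
    (.leaf (.box ⟨610, -2, -2048, 8, -52, 1041, 374476, 0, 0, 0, 0, 0, 0⟩ ⟨0, 0, 0, 0, 0, 0, 197404, 0, 0, 0, 0, 0, 0⟩ ⟨0, 0, 0, 0, 0, 0, 197404, 0, 0, 0, 0, 0, 0⟩ ⟨0, 0, 0, 0, 0, 0, 134029, 0, 0, 0, 0, 0, 0⟩ ⟨0, 0, 0, 0, 0, 0, 134029, 0, 0, 0, 0, 0, 0⟩ ⟨540, -6, -2048, 26, -175, 947, 101456, 0, 0, 0, 0, 0, 0⟩)))
    (.leaf (.box ⟨1225, -3, -2048, 11, -58, 1097, 348878, 0, 0, 0, 0, 0, 0⟩ ⟨0, 0, 0, 0, 0, 0, 188038, 0, 0, 0, 0, 0, 0⟩ ⟨0, 0, 0, 0, 0, 0, 188038, 0, 0, 0, 0, 0, 0⟩ ⟨0, 0, 0, 0, 0, 0, 128703, 0, 0, 0, 0, 0, 0⟩ ⟨0, 0, 0, 0, 0, 0, 128703, 0, 0, 0, 0, 0, 0⟩ ⟨1134, -9, -2048, 33, -184, 977, 97832, 0, 0, 0, 0, 0, 0⟩)))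
    (.s1
    (.leaf (.box ⟨2048, -4, -1494, 17, -77, 1253, 357422, 0, 0, 0, 0, 0, 0⟩ ⟨0, 0, 0, 0, 0, 0, 192668, 0, 0, 0, 0, 0, 0⟩ ⟨0, 0, 0, 0, 0, 0, 192668, 0, 0, 0, 0, 0, 0⟩ ⟨0, 0, 0, 0, 0, 0, 131878, 0, 0, 0, 0, 0, 0⟩ ⟨0, 0, 0, 0, 0, 0, 131878, 0, 0, 0, 0, 0, 0⟩ ⟨2048, -15, -1664, 57, -262, 1206, 100248, 0, 0, 0, 0, 0, 0⟩))
    (.s3
    (.leaf (.box ⟨1545, -4, -2048, 13, -77, 1337, 358551, 0, 0, 0, 0, 0, 0⟩ ⟨0, 0, 0, 0, 0, 0, 217553, 0, 0, 0, 0, 0, 0⟩ ⟨0, 0, 0, 0, 0, 0, 217553, 0, 0, 0, 0, 0, 0⟩ ⟨0, 0, 0, 0, 0, 0, 156148, 0, 0, 0, 0, 0, 0⟩ ⟨0, 0, 0, 0, 0, 0, 156148, 0, 0, 0, 0, 0, 0⟩ ⟨1374, -9, -2048, 34, -206, 1219, 121776, 0, 0, 0, 0, 0, 0⟩))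
    (.leaf (.box ⟨888, -2, -2048, 10, -59, 1099, 372190, 0, 0, 0, 0, 0, 0⟩ ⟨0, 0, 0, 0, 0, 0, 196224, 0, 0, 0, 0, 0, 0⟩ ⟨0, 0, 0, 0, 0, 0, 196224, 0, 0, 0, 0, 0, 0⟩ ⟨0, 0, 0, 0, 0, 0, 133233, 0, 0, 0, 0, 0, 0⟩ ⟨0, 0, 0, 0, 0, 0, 133233, 0, 0, 0, 0, 0, 0⟩ ⟨785, -7, -2048, 31, -197, 997, 100856, 0, 0, 0, 0, 0, 0⟩))))))
    (.leaf (.box ⟨2048, -8, -1545, 25, -48, 856, 305983, 0, 0, 0, 0, 0, 0⟩ ⟨0, 0, 0, 0, 0, 0, 165040, 0, 0, 0, 0, 0, 0⟩ ⟨0, 0, 0, 0, 0, 0, 165040, 0, 0, 0, 0, 0, 0⟩ ⟨0, 0, 0, 0, 0, 0, 112993, 0, 0, 0, 0, 0, 0⟩ ⟨0, 0, 0, 0, 0, 0, 112993, 0, 0, 0, 0, 0, 0⟩ ⟨2048, -27, -1735, 80, -156, 787, 85902, 0, 0, 0, 0, 0, 0⟩))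

/-- A piece of the tree. -/
noncomputable def tree12 : Tree LeafX :=
  .s2
    (.s0
    (.s3
    (.s2
    (.leaf (.box ⟨1231, 0, -2229, 6, -59, 1225, 379523, 0, 0, 0, 0, 0, 0⟩ ⟨0, 0, 0, 0, 0, 0, 230072, 0, 0, 0, 0, 0, 0⟩ ⟨0, 0, 0, 0, 0, 0, 230072, 0, 0, 0, 0, 0, 0⟩ ⟨0, 0, 0, 0, 0, 0, 165070, 0, 0, 0, 0, 0, 0⟩ ⟨0, 0, 0, 0, 0, 0, 165070, 0, 0, 0, 0, 0, 0⟩ ⟨1097, 0, -2048, 14, -158, 1105, 128706, 0, 0, 0, 0, 0, 0⟩))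
    (.leaf (.box ⟨1239, 0, -2048, 7, -63, 1236, 353409, 0, 0, 0, 0, 0, 0⟩ ⟨0, 0, 0, 0, 0, 0, 214284, 0, 0, 0, 0, 0, 0⟩ ⟨0, 0, 0, 0, 0, 0, 214284, 0, 0, 0, 0, 0, 0⟩ ⟨0, 0, 0, 0, 0, 0, 153756, 0, 0, 0, 0, 0, 0⟩ ⟨0, 0, 0, 0, 0, 0, 153756, 0, 0, 0, 0, 0, 0⟩ ⟨1136, -1, -2048, 18, -174, 1162, 119890, 0, 0, 0, 0, 0, 0⟩)))
    (.leaf (.box ⟨1265, 0, -2048, 7, -59, 1200, 366510, 0, 0, 0, 0, 0, 0⟩ ⟨0, 0, 0, 0, 0, 0, 192997, 0, 0, 0, 0, 0, 0⟩ ⟨0, 0, 0, 0, 0, 0, 192997, 0, 0, 0, 0, 0, 0⟩ ⟨0, 0, 0, 0, 0, 0, 130986, 0, 0, 0, 0, 0, 0⟩ ⟨0, 0, 0, 0, 0, 0, 130986, 0, 0, 0, 0, 0, 0⟩ ⟨1145, -1, -2048, 19, -205, 1133, 99133, 0, 0, 0, 0, 0, 0⟩)))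
    (.s3
    (.s1
    (.s2
    (.leaf (.box ⟨736, -1, -2087, 6, -50, 962, 383919, 0, 0, 0, 0, 0, 0⟩ ⟨0, 0, 0, 0, 0, 0, 232831, 0, 0, 0, 0, 0, 0⟩ ⟨0, 0, 0, 0, 0, 0, 232831, 0, 0, 0, 0, 0, 0⟩ ⟨0, 0, 0, 0, 0, 0, 167079, 0, 0, 0, 0, 0, 0⟩ ⟨0, 0, 0, 0, 0, 0, 167079, 0, 0, 0, 0, 0, 0⟩ ⟨643, -3, -2048, 16, -146, 953, 130285, 0, 0, 0, 0, 0, 0⟩))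
    (.leaf (.box ⟨824, -2, -2048, 8, -57, 1050, 359596, 0, 0, 0, 0, 0, 0⟩ ⟨0, 0, 0, 0, 0, 0, 218115, 0, 0, 0, 0, 0, 0⟩ ⟨0, 0, 0, 0, 0, 0, 218115, 0, 0, 0, 0, 0, 0⟩ ⟨0, 0, 0, 0, 0, 0, 156530, 0, 0, 0, 0, 0, 0⟩ ⟨0, 0, 0, 0, 0, 0, 156530, 0, 0, 0, 0, 0, 0⟩ ⟨725, -5, -2048, 21, -157, 986, 122064, 0, 0, 0, 0, 0, 0⟩)))
    (.leaf (.box ⟨515, -1, -2490, 6, -58, 1106, 360515, 0, 0, 0, 0, 0, 0⟩ ⟨0, 0, 0, 0, 0, 0, 218578, 0, 0, 0, 0, 0, 0⟩ ⟨0, 0, 0, 0, 0, 0, 218578, 0, 0, 0, 0, 0, 0⟩ ⟨0, 0, 0, 0, 0, 0, 156832, 0, 0, 0, 0, 0, 0⟩ ⟨0, 0, 0, 0, 0, 0, 156832, 0, 0, 0, 0, 0, 0⟩ ⟨493, -1, -2048, 15, -146, 946, 122287, 0, 0, 0, 0, 0, 0⟩)))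
    (.s2
    (.s2
    (.leaf (.box ⟨419, -1, -2184, 6, -43, 924, 411788, 0, 0, 0, 0, 0, 0⟩ ⟨0, 0, 0, 0, 0, 0, 216896, 0, 0, 0, 0, 0, 0⟩ ⟨0, 0, 0, 0, 0, 0, 216896, 0, 0, 0, 0, 0, 0⟩ ⟨0, 0, 0, 0, 0, 0, 147220, 0, 0, 0, 0, 0, 0⟩ ⟨0, 0, 0, 0, 0, 0, 147220, 0, 0, 0, 0, 0, 0⟩ ⟨397, -2, -2048, 19, -145, 851, 111425, 0, 0, 0, 0, 0, 0⟩))
    (.leaf (.box ⟨427, -1, -2098, 6, -45, 933, 398262, 0, 0, 0, 0, 0, 0⟩ ⟨0, 0, 0, 0, 0, 0, 209792, 0, 0, 0, 0, 0, 0⟩ ⟨0, 0, 0, 0, 0, 0, 209792, 0, 0, 0, 0, 0, 0⟩ ⟨0, 0, 0, 0, 0, 0, 142403, 0, 0, 0, 0, 0, 0⟩ ⟨0, 0, 0, 0, 0, 0, 142403, 0, 0, 0, 0, 0, 0⟩ ⟨324, -2, -2048, 17, -168, 911, 107781, 0, 0, 0, 0, 0, 0⟩)))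
    (.leaf (.box ⟨477, -1, -2048, 7, -48, 956, 373111, 0, 0, 0, 0, 0, 0⟩ ⟨0, 0, 0, 0, 0, 0, 196599, 0, 0, 0, 0, 0, 0⟩ ⟨0, 0, 0, 0, 0, 0, 196599, 0, 0, 0, 0, 0, 0⟩ ⟨0, 0, 0, 0, 0, 0, 133461, 0, 0, 0, 0, 0, 0⟩ ⟨0, 0, 0, 0, 0, 0, 133461, 0, 0, 0, 0, 0, 0⟩ ⟨408, -3, -2048, 23, -165, 894, 101018, 0, 0, 0, 0, 0, 0⟩)))))
    (.leaf (.box ⟨1464, -3, -2048, 18, -48, 960, 308320, 0, 0, 0, 0, 0, 0⟩ ⟨0, 0, 0, 0, 0, 0, 166175, 0, 0, 0, 0, 0, 0⟩ ⟨0, 0, 0, 0, 0, 0, 166175, 0, 0, 0, 0, 0, 0⟩ ⟨0, 0, 0, 0, 0, 0, 113738, 0, 0, 0, 0, 0, 0⟩ ⟨0, 0, 0, 0, 0, 0, 113738, 0, 0, 0, 0, 0, 0⟩ ⟨2038, -14, -2048, 72, -188, 1066, 86456, 0, 0, 0, 0, 0, 0⟩))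

/-- A piece of the tree. -/
noncomputable def tree13 : Tree LeafX :=
  .s1
    (.s2
    (.s3
    (.leaf (.box ⟨2048, -4, -55, 33, -76, 1008, 368705, 0, 0, 0, 0, 0, 0⟩ ⟨0, 0, 0, 0, 0, 0, 223685, 0, 0, 0, 0, 0, 0⟩ ⟨0, 0, 0, 0, 0, 0, 223685, 0, 0, 0, 0, 0, 0⟩ ⟨0, 0, 0, 0, 0, 0, 160541, 0, 0, 0, 0, 0, 0⟩ ⟨0, 0, 0, 0, 0, 0, 160541, 0, 0, 0, 0, 0, 0⟩ ⟨2048, -11, -125, 97, -223, 1009, 125198, 0, 0, 0, 0, 0, 0⟩))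
    (.leaf (.box ⟨2048, -4, -780, 36, -85, 1217, 382667, 0, 0, 0, 0, 0, 0⟩ ⟨0, 0, 0, 0, 0, 0, 201704, 0, 0, 0, 0, 0, 0⟩ ⟨0, 0, 0, 0, 0, 0, 201704, 0, 0, 0, 0, 0, 0⟩ ⟨0, 0, 0, 0, 0, 0, 136944, 0, 0, 0, 0, 0, 0⟩ ⟨0, 0, 0, 0, 0, 0, 136944, 0, 0, 0, 0, 0, 0⟩ ⟨2048, -19, -753, 178, -246, 1162, 103661, 0, 0, 0, 0, 0, 0⟩)))
    (.leaf (.box ⟨2048, -5, -71, 35, -65, 888, 331275, 0, 0, 0, 0, 0, 0⟩ ⟨0, 0, 0, 0, 0, 0, 178613, 0, 0, 0, 0, 0, 0⟩ ⟨0, 0, 0, 0, 0, 0, 178613, 0, 0, 0, 0, 0, 0⟩ ⟨0, 0, 0, 0, 0, 0, 122268, 0, 0, 0, 0, 0, 0⟩ ⟨0, 0, 0, 0, 0, 0, 122268, 0, 0, 0, 0, 0, 0⟩ ⟨2048, -18, -232, 111, -199, 763, 92947, 0, 0, 0, 0, 0, 0⟩)))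
    (.s2
    (.s0
    (.s1
    (.s3
    (.s2
    (.leaf (.box ⟨1366, -2, -2048, 11, -70, 1225, 391163, 0, 0, 0, 0, 0, 0⟩ ⟨0, 0, 0, 0, 0, 0, 237278, 0, 0, 0, 0, 0, 0⟩ ⟨0, 0, 0, 0, 0, 0, 237278, 0, 0, 0, 0, 0, 0⟩ ⟨0, 0, 0, 0, 0, 0, 170287, 0, 0, 0, 0, 0, 0⟩ ⟨0, 0, 0, 0, 0, 0, 170287, 0, 0, 0, 0, 0, 0⟩ ⟨1416, -7, -2048, 36, -233, 1382, 132794, 0, 0, 0, 0, 0, 0⟩))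
    (.leaf (.box ⟨1602, -3, -2048, 16, -86, 1439, 368177, 0, 0, 0, 0, 0, 0⟩ ⟨0, 0, 0, 0, 0, 0, 223297, 0, 0, 0, 0, 0, 0⟩ ⟨0, 0, 0, 0, 0, 0, 223297, 0, 0, 0, 0, 0, 0⟩ ⟨0, 0, 0, 0, 0, 0, 160241, 0, 0, 0, 0, 0, 0⟩ ⟨0, 0, 0, 0, 0, 0, 160241, 0, 0, 0, 0, 0, 0⟩ ⟨1483, -8, -2048, 41, -232, 1326, 124955, 0, 0, 0, 0, 0, 0⟩)))
    (.s2
    (.leaf (.box ⟨951, -1, -2048, 9, -54, 1020, 405902, 0, 0, 0, 0, 0, 0⟩ ⟨0, 0, 0, 0, 0, 0, 213877, 0, 0, 0, 0, 0, 0⟩ ⟨0, 0, 0, 0, 0, 0, 213877, 0, 0, 0, 0, 0, 0⟩ ⟨0, 0, 0, 0, 0, 0, 145190, 0, 0, 0, 0, 0, 0⟩ ⟨0, 0, 0, 0, 0, 0, 145190, 0, 0, 0, 0, 0, 0⟩ ⟨864, -5, -2048, 29, -193, 983, 109896, 0, 0, 0, 0, 0, 0⟩))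
    (.leaf (.box ⟨1000, -2, -2048, 11, -63, 1128, 381962, 0, 0, 0, 0, 0, 0⟩ ⟨0, 0, 0, 0, 0, 0, 201226, 0, 0, 0, 0, 0, 0⟩ ⟨0, 0, 0, 0, 0, 0, 201226, 0, 0, 0, 0, 0, 0⟩ ⟨0, 0, 0, 0, 0, 0, 136594, 0, 0, 0, 0, 0, 0⟩ ⟨0, 0, 0, 0, 0, 0, 136594, 0, 0, 0, 0, 0, 0⟩ ⟨905, -6, -2048, 35, -212, 1037, 103386, 0, 0, 0, 0, 0, 0⟩))))
    (.s3
    (.s2
    (.leaf (.box ⟨849, -1, -2048, 7, -49, 920, 391590, 0, 0, 0, 0, 0, 0⟩ ⟨0, 0, 0, 0, 0, 0, 237463, 0, 0, 0, 0, 0, 0⟩ ⟨0, 0, 0, 0, 0, 0, 237463, 0, 0, 0, 0, 0, 0⟩ ⟨0, 0, 0, 0, 0, 0, 170396, 0, 0, 0, 0, 0, 0⟩ ⟨0, 0, 0, 0, 0, 0, 170396, 0, 0, 0, 0, 0, 0⟩ ⟨814, -2, -2048, 18, -142, 905, 132869, 0, 0, 0, 0, 0, 0⟩))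
    (.leaf (.box ⟨934, -1, -2048, 8, -57, 1021, 367781, 0, 0, 0, 0, 0, 0⟩ ⟨0, 0, 0, 0, 0, 0, 222972, 0, 0, 0, 0, 0, 0⟩ ⟨0, 0, 0, 0, 0, 0, 222972, 0, 0, 0, 0, 0, 0⟩ ⟨0, 0, 0, 0, 0, 0, 159981, 0, 0, 0, 0, 0, 0⟩ ⟨0, 0, 0, 0, 0, 0, 159981, 0, 0, 0, 0, 0, 0⟩ ⟨875, -4, -2048, 23, -158, 965, 124741, 0, 0, 0, 0, 0, 0⟩)))
    (.s2
    (.leaf (.box ⟨688, -1, -2449, 6, -51, 1016, 406172, 0, 0, 0, 0, 0, 0⟩ ⟨0, 0, 0, 0, 0, 0, 213885, 0, 0, 0, 0, 0, 0⟩ ⟨0, 0, 0, 0, 0, 0, 213885, 0, 0, 0, 0, 0, 0⟩ ⟨0, 0, 0, 0, 0, 0, 145163, 0, 0, 0, 0, 0, 0⟩ ⟨0, 0, 0, 0, 0, 0, 145163, 0, 0, 0, 0, 0, 0⟩ ⟨533, -2, -2048, 19, -153, 833, 109863, 0, 0, 0, 0, 0, 0⟩))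
    (.leaf (.box ⟨601, -1, -2048, 7, -48, 914, 381355, 0, 0, 0, 0, 0, 0⟩ ⟨0, 0, 0, 0, 0, 0, 200774, 0, 0, 0, 0, 0, 0⟩ ⟨0, 0, 0, 0, 0, 0, 200774, 0, 0, 0, 0, 0, 0⟩ ⟨0, 0, 0, 0, 0, 0, 136255, 0, 0, 0, 0, 0, 0⟩ ⟨0, 0, 0, 0, 0, 0, 136255, 0, 0, 0, 0, 0, 0⟩ ⟨536, -3, -2048, 23, -165, 858, 103117, 0, 0, 0, 0, 0, 0⟩)))))
    (.s1
    (.leaf (.box ⟨2048, -2, -1534, 22, -96, 1436, 379644, 0, 0, 0, 0, 0, 0⟩ ⟨0, 0, 0, 0, 0, 0, 204549, 0, 0, 0, 0, 0, 0⟩ ⟨0, 0, 0, 0, 0, 0, 204549, 0, 0, 0, 0, 0, 0⟩ ⟨0, 0, 0, 0, 0, 0, 139987, 0, 0, 0, 0, 0, 0⟩ ⟨0, 0, 0, 0, 0, 0, 139987, 0, 0, 0, 0, 0, 0⟩ ⟨2048, -9, -1640, 75, -337, 1420, 106402, 0, 0, 0, 0, 0, 0⟩))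
    (.s3
    (.leaf (.box ⟨1560, -2, -2048, 16, -85, 1371, 377406, 0, 0, 0, 0, 0, 0⟩ ⟨0, 0, 0, 0, 0, 0, 228872, 0, 0, 0, 0, 0, 0⟩ ⟨0, 0, 0, 0, 0, 0, 228872, 0, 0, 0, 0, 0, 0⟩ ⟨0, 0, 0, 0, 0, 0, 164235, 0, 0, 0, 0, 0, 0⟩ ⟨0, 0, 0, 0, 0, 0, 164235, 0, 0, 0, 0, 0, 0⟩ ⟨1587, -6, -2048, 48, -173, 1016, 128066, 0, 0, 0, 0, 0, 0⟩))
    (.leaf (.box ⟨1081, -1, -2048, 11, -63, 1084, 391484, 0, 0, 0, 0, 0, 0⟩ ⟨0, 0, 0, 0, 0, 0, 206207, 0, 0, 0, 0, 0, 0⟩ ⟨0, 0, 0, 0, 0, 0, 206207, 0, 0, 0, 0, 0, 0⟩ ⟨0, 0, 0, 0, 0, 0, 139966, 0, 0, 0, 0, 0, 0⟩ ⟨0, 0, 0, 0, 0, 0, 139966, 0, 0, 0, 0, 0, 0⟩ ⟨1048, -4, -2048, 34, -198, 926, 105935, 0, 0, 0, 0, 0, 0⟩)))))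
    (.s3
    (.leaf (.box ⟨2048, -7, -1495, 35, -74, 1183, 328091, 0, 0, 0, 0, 0, 0⟩ ⟨0, 0, 0, 0, 0, 0, 198987, 0, 0, 0, 0, 0, 0⟩ ⟨0, 0, 0, 0, 0, 0, 198987, 0, 0, 0, 0, 0, 0⟩ ⟨0, 0, 0, 0, 0, 0, 142796, 0, 0, 0, 0, 0, 0⟩ ⟨0, 0, 0, 0, 0, 0, 142796, 0, 0, 0, 0, 0, 0⟩ ⟨2048, -15, -1732, 78, -158, 864, 111352, 0, 0, 0, 0, 0, 0⟩))
    (.leaf (.box ⟨1825, -5, -2048, 31, -69, 1185, 340378, 0, 0, 0, 0, 0, 0⟩ ⟨0, 0, 0, 0, 0, 0, 179321, 0, 0, 0, 0, 0, 0⟩ ⟨0, 0, 0, 0, 0, 0, 179321, 0, 0, 0, 0, 0, 0⟩ ⟨0, 0, 0, 0, 0, 0, 121725, 0, 0, 0, 0, 0, 0⟩ ⟨0, 0, 0, 0, 0, 0, 121725, 0, 0, 0, 0, 0, 0⟩ ⟨1727, -16, -2048, 90, -190, 889, 92132, 0, 0, 0, 0, 0, 0⟩))))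

/-- A piece of the tree. -/
noncomputable def tree14 : Tree LeafX :=
  .s0
    (.s0
    (.s2
    (.leaf (.box ⟨2048, 5, 1274, 13, -18, 305, 293430, 0, 0, 0, 0, 0, 0⟩ ⟨0, 0, 0, 0, 0, 0, 157891, 0, 0, 0, 0, 0, 0⟩ ⟨0, 0, 0, 0, 0, 0, 157891, 0, 0, 0, 0, 0, 0⟩ ⟨0, 0, 0, 0, 0, 0, 108003, 0, 0, 0, 0, 0, 0⟩ ⟨0, 0, 0, 0, 0, 0, 108003, 0, 0, 0, 0, 0, 0⟩ ⟨2048, 19, 1339, 47, -67, 316, 82071, 0, 0, 0, 0, 0, 0⟩))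
    (.leaf (.box ⟨2048, 3, 1093, 7, -11, 162, 255235, 0, 0, 0, 0, 0, 0⟩ ⟨0, 0, 0, 0, 0, 0, 137309, 0, 0, 0, 0, 0, 0⟩ ⟨0, 0, 0, 0, 0, 0, 137309, 0, 0, 0, 0, 0, 0⟩ ⟨0, 0, 0, 0, 0, 0, 93917, 0, 0, 0, 0, 0, 0⟩ ⟨0, 0, 0, 0, 0, 0, 93917, 0, 0, 0, 0, 0, 0⟩ ⟨2048, 8, 1095, 22, -44, 172, 71364, 0, 0, 0, 0, 0, 0⟩)))
    (.leaf (.box ⟨2048, 3, 779, 9, -19, 337, 289641, 0, 0, 0, 0, 0, 0⟩ ⟨0, 0, 0, 0, 0, 0, 155653, 0, 0, 0, 0, 0, 0⟩ ⟨0, 0, 0, 0, 0, 0, 155653, 0, 0, 0, 0, 0, 0⟩ ⟨0, 0, 0, 0, 0, 0, 106422, 0, 0, 0, 0, 0, 0⟩ ⟨0, 0, 0, 0, 0, 0, 106422, 0, 0, 0, 0, 0, 0⟩ ⟨2048, 11, 708, 32, -70, 337, 80850, 0, 0, 0, 0, 0, 0⟩)))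
    (.s1
    (.s0
    (.s2
    (.leaf (.box ⟨2048, 2, -900, 8, -40, 794, 355623, 0, 0, 0, 0, 0, 0⟩ ⟨0, 0, 0, 0, 0, 0, 190577, 0, 0, 0, 0, 0, 0⟩ ⟨0, 0, 0, 0, 0, 0, 190577, 0, 0, 0, 0, 0, 0⟩ ⟨0, 0, 0, 0, 0, 0, 130166, 0, 0, 0, 0, 0, 0⟩ ⟨0, 0, 0, 0, 0, 0, 130166, 0, 0, 0, 0, 0, 0⟩ ⟨2048, 6, -993, 28, -148, 822, 98836, 0, 0, 0, 0, 0, 0⟩))
    (.leaf (.box ⟨2048, 1, -637, 11, -28, 598, 308825, 0, 0, 0, 0, 0, 0⟩ ⟨0, 0, 0, 0, 0, 0, 165807, 0, 0, 0, 0, 0, 0⟩ ⟨0, 0, 0, 0, 0, 0, 165807, 0, 0, 0, 0, 0, 0⟩ ⟨0, 0, 0, 0, 0, 0, 113325, 0, 0, 0, 0, 0, 0⟩ ⟨0, 0, 0, 0, 0, 0, 113325, 0, 0, 0, 0, 0, 0⟩ ⟨2048, 4, -894, 37, -101, 591, 86079, 0, 0, 0, 0, 0, 0⟩)))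
    (.s1
    (.s2
    (.s0
    (.s3
    (.s2
    (.leaf (.box ⟨717, 0, -2655, 6, -48, 969, 392099, 0, 0, 0, 0, 0, 0⟩ ⟨0, 0, 0, 0, 0, 0, 237661, 0, 0, 0, 0, 0, 0⟩ ⟨0, 0, 0, 0, 0, 0, 237661, 0, 0, 0, 0, 0, 0⟩ ⟨0, 0, 0, 0, 0, 0, 170504, 0, 0, 0, 0, 0, 0⟩ ⟨0, 0, 0, 0, 0, 0, 170504, 0, 0, 0, 0, 0, 0⟩ ⟨531, 0, -2048, 14, -109, 747, 132938, 0, 0, 0, 0, 0, 0⟩))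
    (.leaf (.box ⟨635, 0, -2181, 6, -44, 846, 367046, 0, 0, 0, 0, 0, 0⟩ ⟨0, 0, 0, 0, 0, 0, 222322, 0, 0, 0, 0, 0, 0⟩ ⟨0, 0, 0, 0, 0, 0, 222322, 0, 0, 0, 0, 0, 0⟩ ⟨0, 0, 0, 0, 0, 0, 159451, 0, 0, 0, 0, 0, 0⟩ ⟨0, 0, 0, 0, 0, 0, 159451, 0, 0, 0, 0, 0, 0⟩ ⟨546, -1, -2048, 16, -117, 765, 124300, 0, 0, 0, 0, 0, 0⟩)))
    (.leaf (.box ⟨476, 0, -2526, 6, -47, 950, 380196, 0, 0, 0, 0, 0, 0⟩ ⟨0, 0, 0, 0, 0, 0, 199865, 0, 0, 0, 0, 0, 0⟩ ⟨0, 0, 0, 0, 0, 0, 199865, 0, 0, 0, 0, 0, 0⟩ ⟨0, 0, 0, 0, 0, 0, 135565, 0, 0, 0, 0, 0, 0⟩ ⟨0, 0, 0, 0, 0, 0, 135565, 0, 0, 0, 0, 0, 0⟩ ⟨343, -1, -2048, 18, -137, 751, 102567, 0, 0, 0, 0, 0, 0⟩)))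
    (.s3
    (.s1
    (.s2
    (.leaf (.box ⟨889, -1, -2048, 7, -51, 920, 398980, 0, 0, 0, 0, 0, 0⟩ ⟨0, 0, 0, 0, 0, 0, 241842, 0, 0, 0, 0, 0, 0⟩ ⟨0, 0, 0, 0, 0, 0, 241842, 0, 0, 0, 0, 0, 0⟩ ⟨0, 0, 0, 0, 0, 0, 173507, 0, 0, 0, 0, 0, 0⟩ ⟨0, 0, 0, 0, 0, 0, 173507, 0, 0, 0, 0, 0, 0⟩ ⟨853, -2, -2048, 21, -146, 904, 135281, 0, 0, 0, 0, 0, 0⟩))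
    (.leaf (.box ⟨950, -1, -2048, 9, -58, 1002, 375562, 0, 0, 0, 0, 0, 0⟩ ⟨0, 0, 0, 0, 0, 0, 227690, 0, 0, 0, 0, 0, 0⟩ ⟨0, 0, 0, 0, 0, 0, 227690, 0, 0, 0, 0, 0, 0⟩ ⟨0, 0, 0, 0, 0, 0, 163367, 0, 0, 0, 0, 0, 0⟩ ⟨0, 0, 0, 0, 0, 0, 163367, 0, 0, 0, 0, 0, 0⟩ ⟨893, -3, -2048, 25, -160, 947, 127381, 0, 0, 0, 0, 0, 0⟩)))
    (.leaf (.box ⟨703, 0, -2200, 6, -44, 811, 374037, 0, 0, 0, 0, 0, 0⟩ ⟨0, 0, 0, 0, 0, 0, 226702, 0, 0, 0, 0, 0, 0⟩ ⟨0, 0, 0, 0, 0, 0, 226702, 0, 0, 0, 0, 0, 0⟩ ⟨0, 0, 0, 0, 0, 0, 162638, 0, 0, 0, 0, 0, 0⟩ ⟨0, 0, 0, 0, 0, 0, 162638, 0, 0, 0, 0, 0, 0⟩ ⟨561, -1, -2048, 17, -130, 809, 126804, 0, 0, 0, 0, 0, 0⟩)))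
    (.s2
    (.leaf (.box ⟨748, 0, -2048, 7, -38, 765, 412706, 0, 0, 0, 0, 0, 0⟩ ⟨0, 0, 0, 0, 0, 0, 217089, 0, 0, 0, 0, 0, 0⟩ ⟨0, 0, 0, 0, 0, 0, 217089, 0, 0, 0, 0, 0, 0⟩ ⟨0, 0, 0, 0, 0, 0, 147280, 0, 0, 0, 0, 0, 0⟩ ⟨0, 0, 0, 0, 0, 0, 147280, 0, 0, 0, 0, 0, 0⟩ ⟨609, -1, -2048, 25, -148, 804, 111443, 0, 0, 0, 0, 0, 0⟩))
    (.leaf (.box ⟨776, -1, -2048, 8, -42, 801, 387699, 0, 0, 0, 0, 0, 0⟩ ⟨0, 0, 0, 0, 0, 0, 204017, 0, 0, 0, 0, 0, 0⟩ ⟨0, 0, 0, 0, 0, 0, 204017, 0, 0, 0, 0, 0, 0⟩ ⟨0, 0, 0, 0, 0, 0, 138431, 0, 0, 0, 0, 0, 0⟩ ⟨0, 0, 0, 0, 0, 0, 138431, 0, 0, 0, 0, 0, 0⟩ ⟨707, -3, -2048, 29, -160, 828, 104755, 0, 0, 0, 0, 0, 0⟩)))))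
    (.s3
    (.s2
    (.leaf (.box ⟨1134, -2, -2048, 14, -46, 854, 344606, 0, 0, 0, 0, 0, 0⟩ ⟨0, 0, 0, 0, 0, 0, 208799, 0, 0, 0, 0, 0, 0⟩ ⟨0, 0, 0, 0, 0, 0, 208799, 0, 0, 0, 0, 0, 0⟩ ⟨0, 0, 0, 0, 0, 0, 149774, 0, 0, 0, 0, 0, 0⟩ ⟨0, 0, 0, 0, 0, 0, 149774, 0, 0, 0, 0, 0, 0⟩ ⟨1004, -5, -2048, 41, -137, 861, 116765, 0, 0, 0, 0, 0, 0⟩))
    (.leaf (.box ⟨1182, -2, -2048, 16, -39, 786, 325414, 0, 0, 0, 0, 0, 0⟩ ⟨0, 0, 0, 0, 0, 0, 197207, 0, 0, 0, 0, 0, 0⟩ ⟨0, 0, 0, 0, 0, 0, 197207, 0, 0, 0, 0, 0, 0⟩ ⟨0, 0, 0, 0, 0, 0, 141471, 0, 0, 0, 0, 0, 0⟩ ⟨0, 0, 0, 0, 0, 0, 141471, 0, 0, 0, 0, 0, 0⟩ ⟨1162, -6, -2048, 40, -99, 681, 110297, 0, 0, 0, 0, 0, 0⟩)))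
    (.leaf (.box ⟨849, -2, -2048, 15, -38, 762, 337243, 0, 0, 0, 0, 0, 0⟩ ⟨0, 0, 0, 0, 0, 0, 177428, 0, 0, 0, 0, 0, 0⟩ ⟨0, 0, 0, 0, 0, 0, 177428, 0, 0, 0, 0, 0, 0⟩ ⟨0, 0, 0, 0, 0, 0, 120381, 0, 0, 0, 0, 0, 0⟩ ⟨0, 0, 0, 0, 0, 0, 120381, 0, 0, 0, 0, 0, 0⟩ ⟨1315, -7, -2048, 56, -148, 803, 91092, 0, 0, 0, 0, 0, 0⟩))))
    (.s2
    (.s2
    (.leaf (.box ⟨946, 1, -2138, 6, -33, 697, 392290, 0, 0, 0, 0, 0, 0⟩ ⟨0, 0, 0, 0, 0, 0, 210589, 0, 0, 0, 0, 0, 0⟩ ⟨0, 0, 0, 0, 0, 0, 210589, 0, 0, 0, 0, 0, 0⟩ ⟨0, 0, 0, 0, 0, 0, 143925, 0, 0, 0, 0, 0, 0⟩ ⟨0, 0, 0, 0, 0, 0, 143925, 0, 0, 0, 0, 0, 0⟩ ⟨909, 2, -2048, 22, -125, 734, 109319, 0, 0, 0, 0, 0, 0⟩))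
    (.leaf (.box ⟨1040, 0, -2234, 6, -38, 743, 365754, 0, 0, 0, 0, 0, 0⟩ ⟨0, 0, 0, 0, 0, 0, 196510, 0, 0, 0, 0, 0, 0⟩ ⟨0, 0, 0, 0, 0, 0, 196510, 0, 0, 0, 0, 0, 0⟩ ⟨0, 0, 0, 0, 0, 0, 134345, 0, 0, 0, 0, 0, 0⟩ ⟨0, 0, 0, 0, 0, 0, 134345, 0, 0, 0, 0, 0, 0⟩ ⟨1212, 1, -2048, 24, -145, 794, 102059, 0, 0, 0, 0, 0, 0⟩)))
    (.leaf (.box ⟨1069, -1, -2048, 11, -32, 658, 323049, 0, 0, 0, 0, 0, 0⟩ ⟨0, 0, 0, 0, 0, 0, 173768, 0, 0, 0, 0, 0, 0⟩ ⟨0, 0, 0, 0, 0, 0, 173768, 0, 0, 0, 0, 0, 0⟩ ⟨0, 0, 0, 0, 0, 0, 118848, 0, 0, 0, 0, 0, 0⟩ ⟨0, 0, 0, 0, 0, 0, 118848, 0, 0, 0, 0, 0, 0⟩ ⟨953, -2, -2048, 33, -101, 576, 90306, 0, 0, 0, 0, 0, 0⟩)))))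
    (.leaf (.box ⟨2048, 1, -144, 11, -21, 380, 308310, 0, 0, 0, 0, 0, 0⟩ ⟨0, 0, 0, 0, 0, 0, 165651, 0, 0, 0, 0, 0, 0⟩ ⟨0, 0, 0, 0, 0, 0, 165651, 0, 0, 0, 0, 0, 0⟩ ⟨0, 0, 0, 0, 0, 0, 113249, 0, 0, 0, 0, 0, 0⟩ ⟨0, 0, 0, 0, 0, 0, 113249, 0, 0, 0, 0, 0, 0⟩ ⟨2048, 5, -69, 40, -81, 401, 86033, 0, 0, 0, 0, 0, 0⟩)))

/-- A piece of the tree. -/
noncomputable def tree15 : Tree LeafX :=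
  .s0
    (.s1
    (.leaf (.box ⟨2048, 29, 1887, 125, -105, 838, 386999, 0, 0, 0, 0, 0, 0⟩ ⟨0, 0, 0, 0, 0, 0, 208481, 0, 0, 0, 0, 0, 0⟩ ⟨0, 0, 0, 0, 0, 0, 208481, 0, 0, 0, 0, 0, 0⟩ ⟨0, 0, 0, 0, 0, 0, 142669, 0, 0, 0, 0, 0, 0⟩ ⟨0, 0, 0, 0, 0, 0, 142669, 0, 0, 0, 0, 0, 0⟩ ⟨2048, 111, 1906, 460, -381, 850, 108438, 0, 0, 0, 375049229, 0, 0⟩))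
    (.s1
    (.leaf (.box ⟨2048, 10, 922, 90, -108, 959, 372539, 0, 0, 0, 0, 0, 0⟩ ⟨0, 0, 0, 0, 0, 0, 200797, 0, 0, 0, 0, 0, 0⟩ ⟨0, 0, 0, 0, 0, 0, 200797, 0, 0, 0, 0, 0, 0⟩ ⟨0, 0, 0, 0, 0, 0, 137438, 0, 0, 0, 0, 0, 0⟩ ⟨0, 0, 0, 0, 0, 0, 137438, 0, 0, 0, 0, 0, 0⟩ ⟨2048, 35, 844, 308, -366, 913, 104472, 0, 0, 0, 0, 0, 0⟩))
    (.s1
    (.leaf (.box ⟨2048, 5, 256, 74, -105, 1038, 366324, 0, 0, 0, 0, 0, 0⟩ ⟨0, 0, 0, 0, 0, 0, 197437, 0, 0, 0, 0, 0, 0⟩ ⟨0, 0, 0, 0, 0, 0, 197437, 0, 0, 0, 0, 0, 0⟩ ⟨0, 0, 0, 0, 0, 0, 135135, 0, 0, 0, 0, 0, 0⟩ ⟨0, 0, 0, 0, 0, 0, 135135, 0, 0, 0, 0, 0, 0⟩ ⟨2048, 15, 161, 239, -330, 914, 102721, 0, 0, 0, 0, 0, 0⟩))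
    (.s2
    (.leaf (.box ⟨2048, 4, -255, 57, -92, 1025, 391824, 0, 0, 0, 0, 0, 0⟩ ⟨0, 0, 0, 0, 0, 0, 211069, 0, 0, 0, 0, 0, 0⟩ ⟨0, 0, 0, 0, 0, 0, 211069, 0, 0, 0, 0, 0, 0⟩ ⟨0, 0, 0, 0, 0, 0, 144438, 0, 0, 0, 0, 0, 0⟩ ⟨0, 0, 0, 0, 0, 0, 144438, 0, 0, 0, 0, 0, 0⟩ ⟨2048, 18, -1092, 264, -423, 1325, 109781, 0, 0, 0, 0, 0, 0⟩))
    (.leaf (.box ⟨2048, 0, -257, 59, -91, 1005, 360753, 0, 0, 0, 0, 0, 0⟩ ⟨0, 0, 0, 0, 0, 0, 194403, 0, 0, 0, 0, 0, 0⟩ ⟨0, 0, 0, 0, 0, 0, 194403, 0, 0, 0, 0, 0, 0⟩ ⟨0, 0, 0, 0, 0, 0, 133050, 0, 0, 0, 0, 0, 0⟩ ⟨0, 0, 0, 0, 0, 0, 133050, 0, 0, 0, 0, 0, 0⟩ ⟨2048, 1, -336, 183, -278, 860, 101133, 0, 0, 0, 0, 0, 0⟩))))))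
    (.leaf (.box ⟨2048, 50, 1337, 196, -120, 899, 515832, 0, 0, 0, 861521313, 0, 0⟩ ⟨0, 0, 0, 0, 0, 0, 277268, 0, 0, 0, 0, 0, 0⟩ ⟨0, 0, 0, 0, 0, 0, 277268, 0, 0, 0, 0, 0, 0⟩ ⟨0, 0, 0, 0, 0, 0, 189587, 0, 0, 0, 0, 0, 0⟩ ⟨0, 0, 0, 0, 0, 0, 189587, 0, 0, 0, 0, 0, 0⟩ ⟨2048, 180, 1165, 671, -378, 791, 144037, 0, 0, 0, 0, 0, 0⟩))

/-- A piece of the tree. -/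
noncomputable def tree16 : Tree LeafX :=
  .s2
    (.s0
    (.s1
    (.s3
    (.leaf (.box ⟨1422, -1, -2048, 17, -90, 1389, 387761, 0, 0, 0, 0, 0, 0⟩ ⟨0, 0, 0, 0, 0, 0, 235137, 0, 0, 0, 0, 0, 0⟩ ⟨0, 0, 0, 0, 0, 0, 235137, 0, 0, 0, 0, 0, 0⟩ ⟨0, 0, 0, 0, 0, 0, 168726, 0, 0, 0, 0, 0, 0⟩ ⟨0, 0, 0, 0, 0, 0, 168726, 0, 0, 0, 0, 0, 0⟩ ⟨1283, -3, -2048, 46, -250, 1316, 131566, 0, 0, 0, 0, 0, 0⟩))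
    (.leaf (.box ⟨992, -1, -2048, 13, -65, 1092, 402191, 0, 0, 0, 0, 0, 0⟩ ⟨0, 0, 0, 0, 0, 0, 211824, 0, 0, 0, 0, 0, 0⟩ ⟨0, 0, 0, 0, 0, 0, 211824, 0, 0, 0, 0, 0, 0⟩ ⟨0, 0, 0, 0, 0, 0, 143773, 0, 0, 0, 0, 0, 0⟩ ⟨0, 0, 0, 0, 0, 0, 143773, 0, 0, 0, 0, 0, 0⟩ ⟨887, -2, -2048, 40, -227, 1030, 108814, 0, 0, 0, 0, 0, 0⟩)))
    (.s3
    (.leaf (.box ⟨922, -1, -2048, 10, -58, 965, 384361, 0, 0, 0, 0, 0, 0⟩ ⟨0, 0, 0, 0, 0, 0, 233045, 0, 0, 0, 0, 0, 0⟩ ⟨0, 0, 0, 0, 0, 0, 233045, 0, 0, 0, 0, 0, 0⟩ ⟨0, 0, 0, 0, 0, 0, 167215, 0, 0, 0, 0, 0, 0⟩ ⟨0, 0, 0, 0, 0, 0, 167215, 0, 0, 0, 0, 0, 0⟩ ⟨976, -2, -2048, 25, -150, 846, 130384, 0, 0, 0, 0, 0, 0⟩))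
    (.leaf (.box ⟨681, 0, -2048, 7, -47, 838, 398595, 0, 0, 0, 0, 0, 0⟩ ⟨0, 0, 0, 0, 0, 0, 209883, 0, 0, 0, 0, 0, 0⟩ ⟨0, 0, 0, 0, 0, 0, 209883, 0, 0, 0, 0, 0, 0⟩ ⟨0, 0, 0, 0, 0, 0, 142444, 0, 0, 0, 0, 0, 0⟩ ⟨0, 0, 0, 0, 0, 0, 142444, 0, 0, 0, 0, 0, 0⟩ ⟨639, -2, -2048, 27, -164, 799, 107804, 0, 0, 0, 0, 0, 0⟩))))
    (.s3
    (.leaf (.box ⟨2048, 0, -1879, 29, -114, 1624, 399866, 0, 0, 0, 0, 0, 0⟩ ⟨0, 0, 0, 0, 0, 0, 242478, 0, 0, 0, 0, 0, 0⟩ ⟨0, 0, 0, 0, 0, 0, 242478, 0, 0, 0, 0, 0, 0⟩ ⟨0, 0, 0, 0, 0, 0, 173994, 0, 0, 0, 0, 0, 0⟩ ⟨0, 0, 0, 0, 0, 0, 173994, 0, 0, 0, 0, 0, 0⟩ ⟨2048, -1, -1998, 86, -334, 1615, 135674, 0, 0, 0, 0, 0, 0⟩))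
    (.leaf (.box ⟨1466, 0, -2048, 21, -85, 1306, 414749, 0, 0, 0, 0, 0, 0⟩ ⟨0, 0, 0, 0, 0, 0, 218439, 0, 0, 0, 0, 0, 0⟩ ⟨0, 0, 0, 0, 0, 0, 218439, 0, 0, 0, 0, 0, 0⟩ ⟨0, 0, 0, 0, 0, 0, 148263, 0, 0, 0, 0, 0, 0⟩ ⟨0, 0, 0, 0, 0, 0, 148263, 0, 0, 0, 0, 0, 0⟩ ⟨1471, -1, -2048, 75, -291, 1215, 112213, 0, 0, 0, 0, 0, 0⟩))))
    (.s3
    (.leaf (.box ⟨2048, -3, -1692, 36, -81, 1176, 351427, 0, 0, 0, 0, 0, 0⟩ ⟨0, 0, 0, 0, 0, 0, 213119, 0, 0, 0, 0, 0, 0⟩ ⟨0, 0, 0, 0, 0, 0, 213119, 0, 0, 0, 0, 0, 0⟩ ⟨0, 0, 0, 0, 0, 0, 152931, 0, 0, 0, 0, 0, 0⟩ ⟨0, 0, 0, 0, 0, 0, 152931, 0, 0, 0, 0, 0, 0⟩ ⟨1926, -8, -2048, 88, -186, 925, 119252, 0, 0, 0, 0, 0, 0⟩))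
    (.leaf (.box ⟨1630, -3, -2048, 31, -69, 1083, 364540, 0, 0, 0, 0, 0, 0⟩ ⟨0, 0, 0, 0, 0, 0, 192017, 0, 0, 0, 0, 0, 0⟩ ⟨0, 0, 0, 0, 0, 0, 192017, 0, 0, 0, 0, 0, 0⟩ ⟨0, 0, 0, 0, 0, 0, 130335, 0, 0, 0, 0, 0, 0⟩ ⟨0, 0, 0, 0, 0, 0, 130335, 0, 0, 0, 0, 0, 0⟩ ⟨1556, -9, -2048, 107, -158, 773, 98646, 0, 0, 0, 0, 0, 0⟩)))

/-- A piece of the tree. -/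
noncomputable def tree17 : Tree LeafX :=
  .s2
    (.s0
    (.s3
    (.s1
    (.leaf (.box ⟨705, 0, -2188, 6, -45, 792, 381530, 0, 0, 0, 0, 0, 0⟩ ⟨0, 0, 0, 0, 0, 0, 231303, 0, 0, 0, 0, 0, 0⟩ ⟨0, 0, 0, 0, 0, 0, 231303, 0, 0, 0, 0, 0, 0⟩ ⟨0, 0, 0, 0, 0, 0, 165957, 0, 0, 0, 0, 0, 0⟩ ⟨0, 0, 0, 0, 0, 0, 165957, 0, 0, 0, 0, 0, 0⟩ ⟨740, -1, -2048, 19, -129, 778, 129400, 0, 0, 0, 0, 0, 0⟩))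
    (.leaf (.box ⟨676, 0, -2861, 6, -46, 850, 379175, 0, 0, 0, 0, 0, 0⟩ ⟨0, 0, 0, 0, 0, 0, 229866, 0, 0, 0, 0, 0, 0⟩ ⟨0, 0, 0, 0, 0, 0, 229866, 0, 0, 0, 0, 0, 0⟩ ⟨0, 0, 0, 0, 0, 0, 164924, 0, 0, 0, 0, 0, 0⟩ ⟨0, 0, 0, 0, 0, 0, 164924, 0, 0, 0, 0, 0, 0⟩ ⟨475, -1, -2048, 13, -94, 592, 128593, 0, 0, 0, 0, 0, 0⟩)))
    (.s2
    (.leaf (.box ⟨734, 0, -2562, 6, -39, 798, 417857, 0, 0, 0, 0, 0, 0⟩ ⟨0, 0, 0, 0, 0, 0, 219811, 0, 0, 0, 0, 0, 0⟩ ⟨0, 0, 0, 0, 0, 0, 219811, 0, 0, 0, 0, 0, 0⟩ ⟨0, 0, 0, 0, 0, 0, 149130, 0, 0, 0, 0, 0, 0⟩ ⟨0, 0, 0, 0, 0, 0, 149130, 0, 0, 0, 0, 0, 0⟩ ⟨729, 0, -2048, 21, -130, 723, 112844, 0, 0, 0, 0, 0, 0⟩))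
    (.leaf (.box ⟨670, 0, -2310, 6, -37, 722, 393139, 0, 0, 0, 0, 0, 0⟩ ⟨0, 0, 0, 0, 0, 0, 206958, 0, 0, 0, 0, 0, 0⟩ ⟨0, 0, 0, 0, 0, 0, 206958, 0, 0, 0, 0, 0, 0⟩ ⟨0, 0, 0, 0, 0, 0, 140446, 0, 0, 0, 0, 0, 0⟩ ⟨0, 0, 0, 0, 0, 0, 140446, 0, 0, 0, 0, 0, 0⟩ ⟨592, -2, -2048, 20, -115, 606, 106287, 0, 0, 0, 0, 0, 0⟩))))
    (.s3
    (.s1
    (.leaf (.box ⟨870, 0, -2048, 10, -61, 981, 394828, 0, 0, 0, 0, 0, 0⟩ ⟨0, 0, 0, 0, 0, 0, 239437, 0, 0, 0, 0, 0, 0⟩ ⟨0, 0, 0, 0, 0, 0, 239437, 0, 0, 0, 0, 0, 0⟩ ⟨0, 0, 0, 0, 0, 0, 171816, 0, 0, 0, 0, 0, 0⟩ ⟨0, 0, 0, 0, 0, 0, 171816, 0, 0, 0, 0, 0, 0⟩ ⟨992, -1, -2048, 27, -147, 801, 133978, 0, 0, 0, 0, 0, 0⟩))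
    (.s2
    (.leaf (.box ⟨636, 0, -2050, 6, -42, 755, 412924, 0, 0, 0, 0, 0, 0⟩ ⟨0, 0, 0, 0, 0, 0, 250316, 0, 0, 0, 0, 0, 0⟩ ⟨0, 0, 0, 0, 0, 0, 250316, 0, 0, 0, 0, 0, 0⟩ ⟨0, 0, 0, 0, 0, 0, 179593, 0, 0, 0, 0, 0, 0⟩ ⟨0, 0, 0, 0, 0, 0, 179593, 0, 0, 0, 0, 0, 0⟩ ⟨617, 0, -2048, 17, -120, 733, 140029, 0, 0, 0, 0, 0, 0⟩))
    (.leaf (.box ⟨648, -1, -2048, 8, -44, 752, 390613, 0, 0, 0, 0, 0, 0⟩ ⟨0, 0, 0, 0, 0, 0, 236906, 0, 0, 0, 0, 0, 0⟩ ⟨0, 0, 0, 0, 0, 0, 236906, 0, 0, 0, 0, 0, 0⟩ ⟨0, 0, 0, 0, 0, 0, 170007, 0, 0, 0, 0, 0, 0⟩ ⟨0, 0, 0, 0, 0, 0, 170007, 0, 0, 0, 0, 0, 0⟩ ⟨671, -2, -2048, 20, -122, 710, 132571, 0, 0, 0, 0, 0, 0⟩))))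
    (.s2
    (.s2
    (.leaf (.box ⟨871, 0, -2048, 8, -37, 710, 441457, 0, 0, 0, 0, 0, 0⟩ ⟨0, 0, 0, 0, 0, 0, 232251, 0, 0, 0, 0, 0, 0⟩ ⟨0, 0, 0, 0, 0, 0, 232251, 0, 0, 0, 0, 0, 0⟩ ⟨0, 0, 0, 0, 0, 0, 157576, 0, 0, 0, 0, 0, 0⟩ ⟨0, 0, 0, 0, 0, 0, 157576, 0, 0, 0, 0, 0, 0⟩ ⟨735, 0, -2048, 29, -140, 736, 119237, 0, 0, 0, 0, 0, 0⟩))
    (.leaf (.box ⟨770, 0, -2048, 8, -41, 765, 428107, 0, 0, 0, 0, 0, 0⟩ ⟨0, 0, 0, 0, 0, 0, 225350, 0, 0, 0, 0, 0, 0⟩ ⟨0, 0, 0, 0, 0, 0, 225350, 0, 0, 0, 0, 0, 0⟩ ⟨0, 0, 0, 0, 0, 0, 152923, 0, 0, 0, 0, 0, 0⟩ ⟨0, 0, 0, 0, 0, 0, 152923, 0, 0, 0, 0, 0, 0⟩ ⟨749, -1, -2048, 30, -144, 731, 115728, 0, 0, 0, 0, 0, 0⟩)))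
    (.leaf (.box ⟨817, -1, -2048, 11, -42, 757, 405241, 0, 0, 0, 0, 0, 0⟩ ⟨0, 0, 0, 0, 0, 0, 213493, 0, 0, 0, 0, 0, 0⟩ ⟨0, 0, 0, 0, 0, 0, 213493, 0, 0, 0, 0, 0, 0⟩ ⟨0, 0, 0, 0, 0, 0, 144921, 0, 0, 0, 0, 0, 0⟩ ⟨0, 0, 0, 0, 0, 0, 144921, 0, 0, 0, 0, 0, 0⟩ ⟨793, -2, -2048, 32, -146, 705, 109689, 0, 0, 0, 0, 0, 0⟩)))))
    (.s3
    (.s3
    (.leaf (.box ⟨1105, -2, -2048, 18, -45, 748, 344310, 0, 0, 0, 0, 0, 0⟩ ⟨0, 0, 0, 0, 0, 0, 222798, 0, 0, 0, 0, 0, 0⟩ ⟨0, 0, 0, 0, 0, 0, 222798, 0, 0, 0, 0, 0, 0⟩ ⟨0, 0, 0, 0, 0, 0, 164680, 0, 0, 0, 0, 0, 0⟩ ⟨0, 0, 0, 0, 0, 0, 164680, 0, 0, 0, 0, 0, 0⟩ ⟨1250, -6, -2048, 46, -122, 718, 130609, 0, 0, 0, 0, 0, 0⟩))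
    (.leaf (.box ⟨1001, -2, -2048, 16, -41, 704, 350594, 0, 0, 0, 0, 0, 0⟩ ⟨0, 0, 0, 0, 0, 0, 210410, 0, 0, 0, 0, 0, 0⟩ ⟨0, 0, 0, 0, 0, 0, 210410, 0, 0, 0, 0, 0, 0⟩ ⟨0, 0, 0, 0, 0, 0, 150309, 0, 0, 0, 0, 0, 0⟩ ⟨0, 0, 0, 0, 0, 0, 150309, 0, 0, 0, 0, 0, 0⟩ ⟨1115, -7, -2048, 57, -136, 678, 116914, 0, 0, 0, 0, 0, 0⟩)))
    (.s2
    (.leaf (.box ⟨893, -1, -2048, 13, -37, 678, 372888, 0, 0, 0, 0, 0, 0⟩ ⟨0, 0, 0, 0, 0, 0, 196375, 0, 0, 0, 0, 0, 0⟩ ⟨0, 0, 0, 0, 0, 0, 196375, 0, 0, 0, 0, 0, 0⟩ ⟨0, 0, 0, 0, 0, 0, 133284, 0, 0, 0, 0, 0, 0⟩ ⟨0, 0, 0, 0, 0, 0, 133284, 0, 0, 0, 0, 0, 0⟩ ⟨983, -5, -2048, 46, -137, 675, 100874, 0, 0, 0, 0, 0, 0⟩))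
    (.leaf (.box ⟨857, -2, -2048, 14, -33, 633, 357106, 0, 0, 0, 0, 0, 0⟩ ⟨0, 0, 0, 0, 0, 0, 188067, 0, 0, 0, 0, 0, 0⟩ ⟨0, 0, 0, 0, 0, 0, 188067, 0, 0, 0, 0, 0, 0⟩ ⟨0, 0, 0, 0, 0, 0, 127645, 0, 0, 0, 0, 0, 0⟩ ⟨0, 0, 0, 0, 0, 0, 127645, 0, 0, 0, 0, 0, 0⟩ ⟨862, -5, -2048, 42, -108, 556, 96607, 0, 0, 0, 0, 0, 0⟩))))

theorem parts0 :
    (runPathS conQ supQ (fun n Qs i d x => leafR conQ seg n Qs i d x) [.d0 false, .d1 false, .d2 false, .d0 false, .d1 false, .d0 false, .d1 false, .d0 false, .d1 false, .d2 false, .d1 false, .d2 false] tree0 0 0 0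
      (joinS (lay.B * lay.size) rootQ) = true) ∧
    (runPathS conQ supQ (fun n Qs i d x => leafR conQ seg n Qs i d x) [.d0 false, .d1 false, .d2 false, .d0 false, .d1 false, .d0 false, .d1 false, .d0 false, .d1 false, .d2 false, .d1 false, .d2 true] tree1 0 0 0
      (joinS (lay.B * lay.size) rootQ) = true) ∧
    (runPathS conQ supQ (fun n Qs i d x => leafR conQ seg n Qs i d x) [.d0 false, .d1 false, .d2 false, .d0 false, .d1 false, .d0 false, .d1 false, .d0 false, .d1 false, .d2 false, .d1 true] tree2 0 0 0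
      (joinS (lay.B * lay.size) rootQ) = true) ∧
    (runPathS conQ supQ (fun n Qs i d x => leafR conQ seg n Qs i d x) [.d0 false, .d1 false, .d2 false, .d0 false, .d1 false, .d0 false, .d1 false, .d0 false, .d1 false, .d2 true] tree3 0 0 0
      (joinS (lay.B * lay.size) rootQ) = true) ∧
    (runPathS conQ supQ (fun n Qs i d x => leafR conQ seg n Qs i d x) [.d0 false, .d1 false, .d2 false, .d0 false, .d1 false, .d0 false, .d1 false, .d0 false, .d1 true] tree4 0 0 0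
      (joinS (lay.B * lay.size) rootQ) = true) ∧
    (runPathS conQ supQ (fun n Qs i d x => leafR conQ seg n Qs i d x) [.d0 false, .d1 false, .d2 false, .d0 false, .d1 false, .d0 false, .d1 false, .d0 true, .d2 false, .d1 false] tree5 0 0 0
      (joinS (lay.B * lay.size) rootQ) = true) ∧
    (runPathS conQ supQ (fun n Qs i d x => leafR conQ seg n Qs i d x) [.d0 false, .d1 false, .d2 false, .d0 false, .d1 false, .d0 false, .d1 false, .d0 true, .d2 false, .d1 true, .d2 false] tree6 0 0 0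
      (joinS (lay.B * lay.size) rootQ) = true) ∧
    (runPathS conQ supQ (fun n Qs i d x => leafR conQ seg n Qs i d x) [.d0 false, .d1 false, .d2 false, .d0 false, .d1 false, .d0 false, .d1 false, .d0 true, .d2 false, .d1 true, .d2 true] tree7 0 0 0
      (joinS (lay.B * lay.size) rootQ) = true) ∧
    (runPathS conQ supQ (fun n Qs i d x => leafR conQ seg n Qs i d x) [.d0 false, .d1 false, .d2 false, .d0 false, .d1 false, .d0 false, .d1 false, .d0 true, .d2 true] tree8 0 0 0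
      (joinS (lay.B * lay.size) rootQ) = true) ∧
    (runPathS conQ supQ (fun n Qs i d x => leafR conQ seg n Qs i d x) [.d0 false, .d1 false, .d2 false, .d0 false, .d1 false, .d0 false, .d1 true] tree9 0 0 0
      (joinS (lay.B * lay.size) rootQ) = true) ∧
    (runPathS conQ supQ (fun n Qs i d x => leafR conQ seg n Qs i d x) [.d0 false, .d1 false, .d2 false, .d0 false, .d1 false, .d0 true, .d1 false] tree10 0 0 0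
      (joinS (lay.B * lay.size) rootQ) = true) ∧
    (runPathS conQ supQ (fun n Qs i d x => leafR conQ seg n Qs i d x) [.d0 false, .d1 false, .d2 false, .d0 false, .d1 false, .d0 true, .d1 true, .d0 false, .d1 false] tree11 0 0 0
      (joinS (lay.B * lay.size) rootQ) = true) ∧
    (runPathS conQ supQ (fun n Qs i d x => leafR conQ seg n Qs i d x) [.d0 false, .d1 false, .d2 false, .d0 false, .d1 false, .d0 true, .d1 true, .d0 false, .d1 true] tree12 0 0 0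
      (joinS (lay.B * lay.size) rootQ) = true) ∧
    (runPathS conQ supQ (fun n Qs i d x => leafR conQ seg n Qs i d x) [.d0 false, .d1 false, .d2 false, .d0 false, .d1 false, .d0 true, .d1 true, .d0 true] tree13 0 0 0
      (joinS (lay.B * lay.size) rootQ) = true) ∧
    (runPathS conQ supQ (fun n Qs i d x => leafR conQ seg n Qs i d x) [.d0 false, .d1 false, .d2 false, .d0 false, .d1 true] tree14 0 0 0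
      (joinS (lay.B * lay.size) rootQ) = true) ∧
    (runPathS conQ supQ (fun n Qs i d x => leafR conQ seg n Qs i d x) [.d0 false, .d1 false, .d2 false, .d0 true, .d1 false] tree15 0 0 0
      (joinS (lay.B * lay.size) rootQ) = true) ∧
    (runPathS conQ supQ (fun n Qs i d x => leafR conQ seg n Qs i d x) [.d0 false, .d1 false, .d2 false, .d0 true, .d1 true, .d1 false, .d0 false, .d0 false, .d1 false] tree16 0 0 0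
      (joinS (lay.B * lay.size) rootQ) = true) ∧
    (runPathS conQ supQ (fun n Qs i d x => leafR conQ seg n Qs i d x) [.d0 false, .d1 false, .d2 false, .d0 true, .d1 true, .d1 false, .d0 false, .d0 false, .d1 true] tree17 0 0 0
      (joinS (lay.B * lay.size) rootQ) = true) :=
  ⟨by decide +kernel,
  by decide +kernel,
  by decide +kernel,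
  by decide +kernel,
  by decide +kernel,
  by decide +kernel,
  by decide +kernel,
  by decide +kernel,
  by decide +kernel,
  by decide +kernel,
  by decide +kernel,
  by decide +kernel,
  by decide +kernel,
  by decide +kernel,
  by decide +kernel,
  by decide +kernel,
  by decide +kernel,
  by decide +kernel⟩

end Vale.Agent.P098.Six.S3
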